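import Vale.Agent.P277Z.FG.S4c
import Vale.Agent.P277Z.Gr.Res

/-!
# Restricted rings are finitely generated (Cascini, Lazic, section 4 and Lemma 6.2, special case)
-/

noncomputable section

namespace P277Z.FG.S4

open Gr Gor Filter Topology

variable {O : Type} [CommRing O]

namespace Dt

variable {X : LM O} {i : X.I} (D : Dt X i) {Y : LM O} (Z : Res X i Y)

theorem uniform [Algebra ℚ O] (hE : Z.Ext) (hP : Y.Pr) (hA : Y.ThA) :
    ∃ (k : ℕ) (r : Finset Y.I → ℕ) (g : ∀ P', Fin (r P') → D.τ ⊕ Y.I → ℕ), 1 ≤ k ∧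
      (∀ P' ν, ν ≠ 0 → cmb (g P') ν ∈ D.MN Z ∧ D.Lf Z (cmb (g P') ν)) ∧
      ∀ n, n ≠ 0 → ∀ x ∈ X.H (cmb D.a (k • n)), Z.ρ x ≠ 0 → ∃ P' ν, nn (cmb (g P') ν) = k • n ∧
        ∀ c, Z.ρ x ∈ Y.Dv c (ps (cmb (g P') ν) c) (D.rf Z (k • n)) := by
  classical
  obtain ⟨N, hadd, hN, hg, hn⟩ := D.pieces Z hE hP hA
  choose r g hg1 hg2 using hg
  choose k hk hlp using fun P' => exists_lp fun l t => ((g P' l (.inl t) : ℕ) : ℤ)
  set K := ∏ P', k P' with hK
  have hK1 : 1 ≤ K := Finset.one_le_prod' fun P' _ => hk P'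
  have B : ∀ n, ∀ q : ℕ, 0 < q → ∀ P' ψ, Sum.elim (q • n) ψ ∈ N P' → ∃ ν,
      nn (cmb (g P') ν) = K • n ∧ q * ∑ c, ps (cmb (g P') ν) c ≤ K * ∑ c, ψ c := by
    intro n q hq P' ψ hz
    have hq' : (0 : ℝ) < q := Nat.cast_pos.2 hq
    obtain ⟨t, h1, h2⟩ := hg2 P' _ hz
    obtain ⟨ν, -, h3, h4⟩ := hlp P' (fun l => ∑ c, (g P' l (.inr c) : ℝ))
      (fun l => by positivity) (fun s => n s) (fun l => t l / q)
      (fun l => div_nonneg (h1 l) hq'.le) fun s => by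
        have := h2 (.inl s)
        simp only [Sum.elim_inl, Pi.smul_apply, smul_eq_mul, Nat.cast_mul] at this
        simp only [Int.cast_natCast, div_mul_eq_mul_div, ← Finset.sum_div]
        rw [← this]
        field_simp
    obtain ⟨e, he⟩ := Finset.dvd_prod_of_mem k (Finset.mem_univ P')
    have h5 : nn (cmb (g P') ν) = k P' • n := funext fun s => by
      have := congrFun h3 s
      simp only [Pi.smul_apply, Finset.sum_apply] at this
      simp only [nsmul_eq_mul] at this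
      simp only [nn, cmb_apply, AddMonoidHom.coe_mk, ZeroHom.coe_mk, Finset.sum_apply,
        Pi.smul_apply, smul_eq_mul]
      exact_mod_cast this.symm
    have h6 : q * ∑ c, ps (cmb (g P') ν) c ≤ k P' * ∑ c, ψ c := by
      have e1 : ∑ l, t l / q * ∑ c, (g P' l (.inr c) : ℝ) = (∑ c, (ψ c : ℝ)) / q := by
        simp only [div_mul_eq_mul_div, ← Finset.sum_div, Finset.mul_sum]
        rw [Finset.sum_comm]
        congr 1
        exact Finset.sum_congr rfl fun c _ => (h2 (.inr c)).symm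
      have e2 : ∑ l, (ν l : ℝ) * ∑ c, (g P' l (.inr c) : ℝ) =
          ((∑ c, ps (cmb (g P') ν) c : ℕ) : ℝ) := by
        simp only [ps, cmb_apply, AddMonoidHom.coe_mk, ZeroHom.coe_mk, Finset.sum_apply,
          Pi.smul_apply, smul_eq_mul, Finset.mul_sum]
        push_cast
        exact Finset.sum_comm
      rw [e1, e2, ← mul_div_assoc, le_div_iff₀ hq', mul_comm] at h4
      exact_mod_cast h4
    refine ⟨e • ν, ?_, ?_⟩
    · rw [map_nsmul, map_nsmul, h5, hK, he, smul_smul, mul_comm]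
    · rw [map_nsmul, map_nsmul, hK, he]
      simp only [Pi.smul_apply, smul_eq_mul, ← Finset.mul_sum]
      nlinarith [Nat.mul_le_mul_left e h6]
  refine ⟨K, r, g, hK1, fun P' ν hν => ?_, fun n h0 x hx hx0 => ?_⟩
  · have := hN P' _ (cmb_mem (hadd P') (hg1 P') hν)
    exact ⟨this.1, this.2.2.2.2⟩
  have hKn : K • n ≠ 0 := smul_ne_zero (by omega) h0
  choose v hv using fun c => exists_ord c (D.res_mem Z hx) hx0
  have hex : ∃ s, ∃ P' ν, nn (cmb (g P') ν) = K • n ∧ ∑ c, ps (cmb (g P') ν) c = s := by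
    obtain ⟨P', hP'⟩ := hn _ hKn x hx hx0 v hv
    obtain ⟨ν, h1, -⟩ := B n K (by omega) P' _ hP'
    exact ⟨_, P', ν, h1, rfl⟩
  obtain ⟨P', ν, h1, h2⟩ := Nat.find_spec hex
  refine ⟨P', ν, h1, fun c₀ => ?_⟩
  by_contra hc
  have hν : ν ≠ 0 := fun h => hKn (by rw [← h1, h, map_zero, map_zero])
  obtain ⟨-, -, ⟨q, hq, x', hx', -, h3⟩, h4, -⟩ := hN P' _ (cmb_mem (hadd P') (hg1 P') hν)
  rw [h1] at hx' h3 h4
  set ψ := ps (cmb (g P') ν) with hψ
  obtain ⟨y, hy, h5⟩ := avoid (X.H (cmb D.a (q • K • n)))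
    (fun c : Option {c // c ∉ P'} => (c.elim (Y.Dv c₀ (q * ψ c₀) (D.rf Z (q • K • n)))
      fun c => Y.Dv c (q * ψ c + 1) (D.rf Z (q • K • n))).comap Z.ρ.toLinearMap) fun c h => by
        cases c with
        | none =>
          have k1 : Z.ρ (x ^ q) ∈ Y.Dv c₀ (q * ψ c₀) (D.rf Z (q • K • n)) :=
            h (by rw [map_nsmul]; exact X.fam.pow hx q)
          rw [map_pow, map_nsmul] at k1
          exact ord_not (ord_pow hP (hv c₀) q)
            (Nat.mul_lt_mul_of_pos_left (ord_lt (hv c₀) hc) hq) k1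
        | some c => exact h3 c.1 c.2 (h hx')
  have hy0 : Z.ρ y ≠ 0 := fun h => h5 none (Submodule.mem_comap.2 (by
    rw [show Z.ρ.toLinearMap y = 0 from h]; exact zero_mem _))
  choose v' hv' using fun c => exists_ord c (D.res_mem Z hy) hy0
  obtain ⟨P'', h6⟩ := hn _ (smul_ne_zero hq.ne' hKn) y hy hy0 v' hv'
  rw [smul_smul] at h6
  obtain ⟨ν', h7, h8⟩ := B n _ (Nat.mul_pos hq (by omega)) P'' _ h6
  have h9 : ∑ c, min (cmb D.β ((q * K) • n) (Z.p c)) (v' c) < ∑ c, q * ψ c := by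
    refine Finset.sum_lt_sum (fun c _ => ?_) ⟨c₀, Finset.mem_univ _,
      (min_le_right _ _).trans_lt (ord_lt (hv' c₀) (h5 none))⟩
    by_cases h : c ∈ P'
    · refine (min_le_left _ _).trans ?_
      rw [← smul_smul, map_nsmul]
      exact Nat.mul_le_mul_left q (h4 c h)
    · exact (min_le_right _ _).trans (Nat.lt_succ_iff.1 (ord_lt (hv' c) (h5 (some ⟨c, h⟩))))
  have h10 := Nat.find_min' hex ⟨P'', ν', h7, rfl⟩
  rw [← Finset.mul_sum, h2] at h9
  nlinarith [Nat.mul_lt_mul_of_pos_left h9 (show 0 < K by omega),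
    Nat.mul_le_mul_left (q * K) h10]

/-- the restricted ring -/
def R (n : D.τ → ℕ) : Submodule O Y.R := (X.H (cmb D.a n)).map Z.ρ.toLinearMap

theorem fam_R : Fam (D.R Z) where
  one := ⟨1, by simpa using X.fam.one, map_one Z.ρ⟩
  mul := by
    rintro a b _ _ ⟨x, hx, rfl⟩ ⟨y, hy, rfl⟩
    exact ⟨x * y, mul_mem' hx hy (map_add _ _ _).symm, map_mul Z.ρ x y⟩

theorem idl_R : Idl (D.R Z) fun _ => ⊥ := by
  intro a b f g _ hg
  rw [show g = 0 from hg, mul_zero]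
  exact zero_mem _

theorem fg_piece (hA : Y.ThA) {r : ℕ} (g : Fin r → D.τ ⊕ Y.I → ℕ)
    (hg : ∀ ν, ν ≠ 0 → cmb g ν ∈ D.MN Z ∧ D.Lf Z (cmb g ν)) :
    ∃ T : Set ((D.τ → ℕ) × Y.R), T.Finite ∧ (∀ t ∈ T, t.2 ∈ D.R Z t.1) ∧ ∀ ν, ν ≠ 0 →
      ∀ s ∈ D.G Z (cZ (cmb g ν)), Y.mon (ps (cmb g ν)) * s ∈ gen O T (nn (cmb g ν)) := by
  have hF : Fam fun z => D.G Z (cH z) := (Y.fam.comap (D.dZ Z)).comap cH
  have h1 : FG (fun ν => D.G Z (cH (cmb g ν))) Set.univ :=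
    FGm.comap (N := fun _ => ⊥) hF (D.fgN Z hA) (cmb g) ⊤ AddMonoid.FG.fg_top fun ν _ => by
      by_cases h : ν = 0
      · rw [h, map_zero]; exact zero_mem _
      · exact (hg ν h).1
  obtain ⟨T, h2, h3, h4⟩ := fg_pos (hF.comap (cmb g)) h1 (Y.fin _)
  let f : (Fin r → ℕ) × Y.R → (D.τ → ℕ) × Y.R := fun t =>
    (nn (cmb g t.1), Y.mon (ps (cmb g t.1)) * t.2)
  have key : ∀ ν s, Mono T ν s → Mono (f '' T) (nn (cmb g ν)) (Y.mon (ps (cmb g ν)) * s) := by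
    intro ν s hs
    induction hs with
    | one => simpa [mon_zero] using Mono.one
    | mul ht _ ih =>
      rw [map_add, map_add, map_add, mon_add, mul_mul_mul_comm]
      exact Mono.mul ⟨_, ht, rfl⟩ ih
  refine ⟨f '' T, h2.image _, ?_, fun ν hν s hs => ?_⟩
  · rintro _ ⟨t, ht, rfl⟩
    obtain ⟨x, hx, e⟩ := (hg _ (h3 t ht).1).2 _ (h3 t ht).2
    exact ⟨x, hx, e⟩
  · rw [mul_comm]
    exact mul_mem_of_span (h4 ν hν hs) fun x hx => mul_comm x _ ▸ mem_gen (key ν x hx)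

theorem fg_R [IsNoetherianRing O] [Algebra ℚ O] (hE : Z.Ext) (hP : Y.Pr) (hA : Y.ThA) :
    FGm (D.R Z) (fun _ => ⊥) ((⊤ : AddSubmonoid (D.τ → ℕ)) : Set (D.τ → ℕ)) := by
  obtain ⟨k, r, g, hk, h1, h2⟩ := D.uniform Z hE hP hA
  choose T t1 t2 t3 using fun P' => D.fg_piece Z hA (g P') (h1 P')
  refine FGm.of_index (N := fun _ => ⊥) (D.fam_R Z) (@idl_R O _ X i D Y Z) ?_ ⊤ AddMonoid.FG.fg_top hk ?_
  · rintro a b _ _ ⟨x, hx, rfl⟩ ⟨y, hy, rfl⟩ h
    exact Y.prm (D.res_mem Z hx) (D.res_mem Z hy) h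
  refine ((fgm_of_finite (Set.finite_singleton 0) fun a _ => (X.fin _).map _).union
    (S' := {a | ∃ b, b ≠ 0 ∧ k • b = a}) ⟨⋃ P', T P', Set.finite_iUnion t1, fun t ht => ?_,
      ?_⟩).mono ?_
  · obtain ⟨P', h⟩ := Set.mem_iUnion.1 ht
    exact t2 P' t h
  · rintro _ ⟨n, hn, rfl⟩ _ ⟨x, hx, rfl⟩
    refine Submodule.mem_sup_left ?_
    by_cases h0 : Z.ρ x = 0
    · exact (show Z.ρ.toLinearMap x = 0 from h0) ▸ zero_mem _
    obtain ⟨P', ν, e, h3⟩ := h2 n hn x hx h0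
    obtain ⟨s, hs, e2⟩ := div_mon hP (D.res_mem Z hx) h3
    have := t3 P' ν (fun h => smul_ne_zero (show k ≠ 0 by omega) hn
      (by rw [← e, h, map_zero, map_zero])) s (by rw [G, dZ_cZ, e]; exact hs)
    rw [e, e2] at this
    exact gen_mono (Set.subset_iUnion T P') _ this
  · rintro _ ⟨b, -, rfl⟩
    by_cases h : b = 0
    · exact Or.inl (by simp [h])
    · exact Or.inr ⟨b, h, rfl⟩

theorem fgm [IsNoetherianRing O] [Algebra ℚ O] (hE : Z.Ext) (hP : Y.Pr) (hA : Y.ThA) :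
    FGm X.H (X.Dv i 1) (Set.range (cmb D.a)) := by
  have h : Tr (fun n => X.H (cmb D.a n)) (fun n => X.Dv i 1 (cmb D.a n)) (D.R Z) (fun _ => ⊥) ⊤
      fun _ => Z.ρ :=
    { mem := fun a _ f hf => ⟨f, hf, rfl⟩
      add := fun _ _ f _ g _ => map_add Z.ρ f g
      smul := fun _ _ c f _ => map_smul Z.ρ c f
      mul := fun _ _ _ _ f _ g _ => map_mul Z.ρ f g
      one := map_one Z.ρ
      ker := fun a _ f hf => Z.ker _ f hf
      surj := by
        rintro a _ _ ⟨x, hx, rfl⟩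
        exact ⟨x, hx, by simp⟩ }
  simpa using FGm.map (cmb D.a) (h.fgm_left (X.fam.comap _) (D.fam_R Z) (@idl_R O _ X i D Y Z)
    AddMonoid.FG.fg_top (D.fg_R Z hE hP hA))

end Dt

/-- **FG-4** -/
theorem s4 [IsNoetherianRing O] [Algebra ℚ O] : S4 O := by
  intro X i Y Z hE hP hA _ P hI T hT
  choose m β h using fun t : T => hT t.1 t.2
  refine (Dt.fgm ⟨T, P, hI, Subtype.val, m, β, h⟩ Z hE hP hA).mono fun a ha => ?_
  obtain ⟨n, rfl⟩ := (mem_closure_range (d := fun t : T => t.1)).1 (by simpa using ha)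
  exact ⟨n, rfl⟩

end P277Z.FG.S4
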