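import Vale.Agent.P277Z.FG.A6

/-!
# P277, finite generation: restricted rings, real boundaries
-/

noncomputable section

namespace P277Z.FG

open Gr Finset

variable {O : Type} [CommRing O]

/-- the cone over the classes `K + S i + A + B`, with `B` not containing `S i` -/
def LM.AdjR (X : LM O) (i : X.I) : Set (X.J → ℝ) :=
  {v | ∃ d : ℝ, 0 < d ∧ ∃ A ∈ X.Amp, ∃ b : X.I → ℝ, (∀ l, 0 ≤ b l ∧ b l ≤ 1) ∧ b i = 0 ∧
    v = d • (cst (X.K + X.S i) + A + X.DR b)}

theorem LM.amp_add' {X : LM O} (i : X.I) (m m' : ℕ) (β β' : X.I → ℕ) (a a' : X.J → ℤ) :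
    X.amp i (m + m') (β + β') (a + a') = X.amp i m β a + X.amp i m' β' a' := by
  rw [LM.amp, LM.amp, LM.amp, ← map_add, LM.D_add, add_smul]
  congr 1
  abel

variable [IsNoetherianRing O] {G : ℕ → LM O → Prop}

theorem Cls.res_real (hG : Cls G) {n : ℕ} (hR : ∀ X, G n X → ∀ i, X.ThR i) {X : LM O}
    (hX : G n X) (i : X.I) (T : Finset (X.J → ℤ)) (hT : ∀ t ∈ T, cst t ∈ X.AdjR i) :
    FGm X.H (X.Dv i 1) (AddSubmonoid.closure (T : Set (X.J → ℤ))) := by
  have h1 : ∀ s : T, ∃ (k m : ℕ) (β : X.I → ℕ), 0 < k ∧ 0 < m ∧ (∀ l, β l < m) ∧ β i = 0 ∧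
      X.amp i m β (k • s.1) ∈ X.Amp := fun s => by
    obtain ⟨d, hd, A, hA, b, hb, hi, h⟩ := hT s.1 s.2
    obtain ⟨k, m, β, h1, h2, h3, h4, h5⟩ := LM.nf (a := s.1) (κ := X.K + X.S i) hd (b := d • b)
      (fun l => ⟨mul_nonneg hd.le (hb l).1, mul_le_of_le_one_right hd.le (hb l).2⟩) (by
        have e : cst s.1 - d • cst (X.K + X.S i) - X.DR (d • b) = d • A := by
          rw [h, LM.DR_smul]; module
        rw [e]
        exact X.amp_smul d hd A hA)
    exact ⟨k, m, β, h1, h2, h3, h4 i (by simp [hi]), h5⟩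
  choose k m β hk hm hβ hi hA using h1
  have h2 := (hG.pr hX).of_mul i (fun s : T => s.1) k hk
    (hG.res_fg hR hX i _ (fg_closure_range _) fun a ha => ?_)
  · rwa [show (Set.range fun s : T => s.1) = (T : Set (X.J → ℤ)) from Subtype.range_coe] at h2
  induction ha using AddSubmonoid.closure_induction with
  | mem a ha =>
    obtain ⟨s, rfl⟩ := ha
    exact Or.inr ⟨m s, β s, hm s, hi s, fun l => (hβ s l).le, hA s⟩
  | zero => exact Or.inl rfl
  | add a a' _ _ ha ha' =>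
    rcases ha with rfl | ⟨m, β, h1, h2, h3, h4⟩
    · rwa [zero_add]
    rcases ha' with rfl | ⟨m', β', h5, h6, h7, h8⟩
    · rw [add_zero]
      exact Or.inr ⟨m, β, h1, h2, h3, h4⟩
    · exact Or.inr ⟨m + m', β + β', add_pos h1 h5, by simp [h2, h6],
        fun l => add_le_add (h3 l) (h7 l), by
          rw [LM.amp_add']
          exact X.amp_add _ h4 _ h8⟩

/-- **Restricted adjoint rings are finitely generated**, from Theorems A and B in lower
dimension. -/
theorem Cls.res_succ (hG : Cls G) (h4 : S4 O) {n : ℕ} (h : ∀ Y, G n Y → Y.ThA ∧ Y.ThB) {X : LM O}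
    (hX : G (n + 1) X) (i : X.I) (T : Finset (X.J → ℤ)) (hT : ∀ t ∈ T, cst t ∈ X.AdjR i) :
    FGm X.H (X.Dv i 1) (AddSubmonoid.closure (T : Set (X.J → ℤ))) :=
  hG.res_real (hG.thR h4 h) hX i T hT

end P277Z.FG
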