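import Vale.Agent.P277Z.FG.L62
import Vale.Agent.P277Z.Gr.A63b

/-!
# P277, finite generation: the induction (Cascini, Lazic, section 6)
-/

noncomputable section

namespace P277Z.FG

open Gr Finset Filter Topology

variable {O : Type} [CommRing O]

namespace LM

variable {X : LM O}

theorem Nef.zero : X.Nef 0 := fun A hA => by rwa [zero_add]

theorem Nef.add {v w : X.J → ℝ} (hv : X.Nef v) (hw : X.Nef w) : X.Nef (v + w) := fun A hA => by
  rw [add_assoc]
  exact hv _ (hw A hA)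

theorem amp_sum {ι : Type} [Fintype ι] {A : ι → X.J → ℝ} (hA : ∀ i, A i ∈ X.Amp) {t : ι → ℝ}
    (ht : ∀ i, 0 ≤ t i) {j : ι} (hj : 0 < t j) : ∑ i, t i • A i ∈ X.Amp := by
  classical
  rw [← sum_erase_add _ _ (mem_univ j)]
  exact sum_induction _ X.Nef (fun _ _ => Nef.add) Nef.zero
    (fun i _ => (nef_of_amp (hA i)).smul (ht i)) _ (X.amp_smul _ hj _ (hA j))

theorem of_mul [IsNoetherianRing O] {ι : Type} [Finite ι] (d : ι → X.J → ℤ) (k : ι → ℕ)
    (hk : ∀ s, 0 < k s) (h : FG X.H (AddSubmonoid.closure (Set.range fun s => k s • d s))) :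
    FG X.H (AddSubmonoid.closure (Set.range d)) :=
  fgm_of_mul (N := fun _ => ⊥) X.fam (@idl_bot _ _ _ _ _ _ _ X.H) (@X.prm) d k hk h

end LM

/-- the pull back of an adjoint class is adjoint, up to exceptional divisors -/
theorem Blow.nf {X Y : LM O} (Z : Blow X Y) {a : X.J → ℤ} {m : ℕ} {β : X.I → ℕ} (hm : 0 < m)
    (hβ : ∀ l, β l < m) (hA : cst (a - m • X.K - X.D β) ∈ X.Amp) :
    ∃ (k m' : ℕ) (β' : Y.I → ℕ), 0 < k ∧ 0 < m' ∧ (∀ l, β' l < m') ∧
      cst (k • (Z.r.mulVec a + Y.D (Z.ex m β)) - m' • Y.K - Y.D β') ∈ Y.Amp := by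
  obtain ⟨w, hw, h1⟩ := Z.amp_eq a m β
  have h0 : X.DR 0 = 0 := by simp [LM.DR]
  obtain ⟨g, hg, -, h2⟩ := Z.big_pull (h := 0) (fun _ => le_rfl) (by rwa [h0, sub_zero])
  have h3 : ∀ᶠ ε : ℝ in 𝓝 0, ∀ c, ε * g c < 1 := eventually_all.2 fun c => by
    have h3 : Continuous fun ε : ℝ => ε * g c := by fun_prop
    exact h3.continuousAt.eventually (gt_mem_nhds (by simp))
  obtain ⟨ε, hε, hε1, h4⟩ := LM.exists_small h3
  have h5 := hw.add_mem ((Z.nef_pull (LM.nef_of_amp hA) hA).sub_smul h2 hε hε1)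
  rw [sub_add_eq_add_sub, ← h1, map_sub, map_sub, cst_nsmul, LM.cst_D, ← LM.DR_smul, sub_sub,
    ← LM.DR_add] at h5
  obtain ⟨k, m', β', h6, h7, h8, -, h9⟩ := LM.nf (Nat.cast_pos.2 hm) (fun c =>
    ⟨add_nonneg (Nat.cast_nonneg _) (mul_nonneg hε.le (hg c)), by
      have h6 : ((Z.bd m β c + 1 : ℕ) : ℝ) ≤ m := Nat.cast_le.2 (Z.bd_lt hm hβ c)
      have h7 := h4 c
      rw [Nat.cast_succ] at h6
      show (Z.bd m β c : ℝ) + ε * g c ≤ m
      linarith⟩) h5
  exact ⟨k, m', β', h6, h7, h8, h9⟩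

variable [IsNoetherianRing O] {G : ℕ → LM O → Prop}

/-- the log smooth case of Theorem 6.3 -/
theorem Cls.fg_snc (hG : Cls G) {n : ℕ} (hR : ∀ X, G n X → ∀ i, X.ThR i) {X : LM O} (hX : G n X)
    {k : ℕ} (t : Fin k → X.J → ℤ) (m : Fin k → ℕ) (β e : Fin k → X.I → ℕ) (u : Fin k → X.R)
    (hm : ∀ s, 0 < m s) (hβ : ∀ s l, β s l < m s)
    (hA : ∀ s, cst (t s - m s • X.K - X.D (β s)) ∈ X.Amp)
    (hu : ∀ s, X.Un (t s - X.D (e s)) (u s)) : FG X.H (AddSubmonoid.closure (Set.range t)) := by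
  have h1 : ∀ s, t s - X.D (β s) + ∑ l, β s l • X.S l = t s := fun s => sub_add_cancel _ _
  choose u' hu' huu using fun s => (hu s).2
  have h2 := a63' X.fam X.S X.σ X.σ_mem (fun j => X.Dv j 1) (fun j => @LM.idl_Dv _ _ X j 1)
    (fun j => by obtain ⟨h, -⟩ := hG.pr hX j; exact @h) (fun j a f hf => LM.mem_Dv_one.1 hf) X.fin
    (fun s => t s - X.D (β s)) m β e hβ (fun j S hS h => hG.res_fg hR hX j S hS fun a ha => ?_) u u'
    (fun s => by rw [h1]; exact (hu s).1) (fun s => by rw [h1]; exact hu' s) huu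
  · simpa only [h1] using h2
  obtain ⟨q, c, h3, h4, rfl⟩ := h a ha
  by_cases h5 : ∃ s, 0 < q s
  · obtain ⟨s, hs⟩ := h5
    refine Or.inr ⟨∑ s, q s * m s, Function.update c j 0, (Nat.mul_pos hs (hm s)).trans_le
      (single_le_sum (f := fun s => q s * m s) (fun _ _ => Nat.zero_le _) (mem_univ s)), by simp,
      fun l => ?_, ?_⟩
    · rw [Function.update_apply]
      split_ifs
      exacts [Nat.zero_le _, h3 l]
    · have h6 : Function.update c j 0 + Pi.single j (∑ s, q s * m s) = c := by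
        ext l
        by_cases hl : l = j
        · simp [hl, h4]
        · simp [hl]
      have h7 := LM.amp_sum hA (t := fun s => q s) (fun _ => Nat.cast_nonneg _)
        (j := s) (Nat.cast_pos.2 hs)
      simp only [← cst_nsmul, ← map_sum] at h7
      rw [LM.amp_def, h6]
      convert h7 using 2
      simp only [smul_sub, sum_sub_distrib, sum_smul, mul_smul, LM.D]
      abel
  · have h6 : ∀ s, q s = 0 := fun s => Nat.eq_zero_of_not_pos fun h => h5 ⟨s, h⟩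
    have h7 : ∀ l, c l = 0 := fun l => by simpa [h6] using h3 l
    exact Or.inl (by simp [h6, h7])

/-- Theorem 6.3 -/
theorem Cls.fg_eff (hG : Cls G) {n : ℕ} (hR : ∀ X, G n X → ∀ i, X.ThR i) {X : LM O} (hX : G n X)
    {k : ℕ} (t : Fin k → X.J → ℤ) (hA : ∀ s, cst (t s) ∈ X.Adj) (hE : ∀ s, X.H (t s) ≠ ⊥) :
    FG X.H (AddSubmonoid.closure (Set.range t)) := by
  classical
  choose x hx hx0 using fun s => (Submodule.ne_bot_iff _).1 (hE s)
  obtain ⟨Y, hY, Z, hZ⟩ := hG.blow n X hX (univ.image fun s => (t s, x s)) fun a ha => by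
    obtain ⟨s, -, rfl⟩ := mem_image.1 ha
    exact ⟨hx s, hx0 s⟩
  choose e u hu _ using fun s => hZ _ (mem_image_of_mem (fun s => (t s, x s)) (mem_univ s))
  choose q m β hq hm hβ hB using fun s => LM.nf_adj (hA s)
  choose q' m' β' hq' hm' hβ' hB' using fun s => Z.nf (hm s) (hβ s) (hB s)
  refine LM.of_mul t q hq (Z.trf_fg _ (fun s => Z.ex (m s) (β s)) (fun s => Z.ex_exc _ _)
    (LM.of_mul _ q' hq' (hG.fg_snc hR hY _ m' β' (fun s => q' s • (q s • e s + Z.ex (m s) (β s)))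
      (fun s => (u s ^ q s) ^ q' s) hm' hβ' hB' fun s => ?_)))
  convert ((hu s).pow (q s)).pow (q' s) using 1
  rw [LM.D_nsmul, LM.D_add, LM.D_nsmul, Matrix.mulVec_smul, ← smul_sub, smul_sub (q s)]
  congr 1
  abel

/-- Theorem 6.4 -/
theorem Cls.thA (hG : Cls G) {n : ℕ} (hR : ∀ X, G n X → ∀ i, X.ThR i) {X : LM O} (hX : G n X)
    (hB : X.ThB) : X.ThA := by
  classical
  intro T hT
  obtain ⟨T', h1, h2⟩ := hB T hT
  obtain ⟨k, t, -, ht⟩ := (T'.erase 0).finite_toSet.fin_param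
  have h3 : ∀ s, t s ≠ 0 ∧ t s ∈ T' := fun s =>
    mem_erase.1 (mem_coe.1 (ht ▸ Set.mem_range_self s))
  obtain ⟨U, h4, h5, h6⟩ := FGm.of_sat (N := fun _ => ⊥) X.fam (@idl_bot _ _ _ _ _ _ _ X.H) (@X.prm)
    (fg_closure_range t) (hG.fg_eff hR hX t
      (fun s => (LM.adj_of_closure hT (h1 _ (h3 s).2).1).resolve_left (h3 s).1)
      fun s => (h1 _ (h3 s).2).2)
  refine ⟨U, h4, h5, fun a ha => ?_⟩
  by_cases h7 : X.H a = ⊥
  · rw [h7]
    exact bot_le
  obtain ⟨m, hm, h8⟩ := h2 a ha h7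
  refine h6 a ⟨m, hm, AddSubmonoid.closure_le.2 (fun b hb => ?_) h8⟩
  by_cases h0 : b = 0
  · rw [h0]
    exact zero_mem _
  · exact AddSubmonoid.subset_closure (ht ▸ mem_coe.2 (mem_erase.2 ⟨h0, hb⟩))

omit [IsNoetherianRing O] in
theorem Cls.thR (hG : Cls G) (h4 : S4 O) {n : ℕ} (h : ∀ Y, G n Y → Y.ThA ∧ Y.ThB) (X : LM O)
    (hX : G (n + 1) X) (i : X.I) : X.ThR i :=
  let ⟨Y, hY, Z, hZ⟩ := hG.res n X i hX
  h4 X i Y Z hZ (hG.pr hY) (h Y hY).1 (h Y hY).2

/-- **Finite generation of adjoint rings**, from the extension step and non-vanishing. -/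
theorem s6 : S6 O := by
  intro G hG h4 h5 n
  induction n using Nat.strong_induction_on with
  | _ n ih =>
    intro X hX
    cases n with
    | zero =>
      have hB : X.ThB := fun T _ => ⟨T, fun t ht => ⟨AddSubmonoid.subset_closure ht,
        (hG.zero X hX).2 t⟩, fun a ha _ => ⟨1, one_pos, by rwa [one_smul]⟩⟩
      exact ⟨hG.thA (fun Y hY i => ((hG.zero Y hY).1.false i).elim) hX hB, hB⟩
    | succ n =>
      have hB := h5 n (fun k hk => ih k (Nat.lt_succ_of_le hk)) X hX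
      exact ⟨hG.thA (hG.thR h4 (ih n n.lt_succ_self)) hX hB, hB⟩

end P277Z.FG
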