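import Vale.Agent.P277Z.FG.Defs
import Vale.Agent.P277Z.Gr.A63
import Vale.Agent.P277Z.Gr.PL

/-!
# P277, finite generation: basic facts on the abstract layer
-/

noncomputable section

namespace P277Z.FG

open Gr Finset Filter Topology

theorem cst_apply {J : Type} (v : J → ℤ) (j : J) : cst v j = v j := rfl

theorem cst_nsmul {J : Type} (n : ℕ) (v : J → ℤ) : cst (n • v) = (n : ℝ) • cst v := by
  rw [map_nsmul, Nat.cast_smul_eq_nsmul]

section rl

variable {J J' : Type} [Fintype J] (r : Matrix J' J ℤ)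

theorem rl_cst (v : J → ℤ) : rl r (cst v) = cst (r.mulVec v) := by
  ext j
  simp [rl, cst_apply, Matrix.mulVec, dotProduct]

theorem rl_add (v w : J → ℝ) : rl r (v + w) = rl r v + rl r w := Matrix.mulVec_add _ _ _

theorem rl_sub (v w : J → ℝ) : rl r (v - w) = rl r v - rl r w := Matrix.mulVec_sub _ _ _

theorem rl_smul (t : ℝ) (v : J → ℝ) : rl r (t • v) = t • rl r v := Matrix.mulVec_smul _ _ _

theorem rl_sum {ι : Type} (s : Finset ι) (v : ι → J → ℝ) :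
    rl r (∑ i ∈ s, v i) = ∑ i ∈ s, rl r (v i) := Matrix.mulVec_sum _ _ _

end rl

/-- rational points near a point of the positive orthant -/
theorem exists_rat {I : Type} [Finite I] {U : Set (I → ℝ)} (hU : IsOpen U) {y : I → ℝ} (hy : y ∈ U)
    (h0 : ∀ l, 0 ≤ y l) : ∃ (k : ℕ) (η : I → ℕ), 0 < k ∧ (fun l => (η l : ℝ) / k) ∈ U ∧
      ∀ l, y l = 0 → η l = 0 := by
  have h1 : Tendsto (fun k : ℕ => fun l => (⌊y l * k⌋₊ : ℝ) / k) atTop (𝓝 y) :=
    tendsto_pi_nhds.2 fun l =>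
      (tendsto_nat_floor_mul_div_atTop (h0 l)).comp tendsto_natCast_atTop_atTop
  obtain ⟨k, hk, hk'⟩ := ((h1.eventually (hU.mem_nhds hy)).and (eventually_gt_atTop 0)).exists
  exact ⟨k, fun l => ⌊y l * k⌋₊, hk', hk, fun l hl => by simp [hl]⟩

variable {O : Type} [CommRing O]

namespace LM

variable (X : LM O)

theorem D_add (n n' : X.I → ℕ) : X.D (n + n') = X.D n + X.D n' := by
  simp only [D, Pi.add_apply, add_smul, sum_add_distrib]

theorem D_zero : X.D 0 = 0 := by simp [D]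

/-- `D` as an additive map -/
def DH : (X.I → ℕ) →+ (X.J → ℤ) := ⟨⟨X.D, X.D_zero⟩, X.D_add⟩

theorem D_nsmul (k : ℕ) (n : X.I → ℕ) : X.D (k • n) = k • X.D n := map_nsmul X.DH k n

theorem D_sum {ι : Type} (s : Finset ι) (n : ι → X.I → ℕ) :
    X.D (∑ i ∈ s, n i) = ∑ i ∈ s, X.D (n i) := map_sum X.DH n s

theorem D_single (i : X.I) (k : ℕ) : X.D (Pi.single i k) = k • X.S i := by
  rw [D, sum_eq_single i] <;> simp +contextual

theorem cst_D (n : X.I → ℕ) : cst (X.D n) = X.DR fun l => n l := by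
  simp only [D, DR, map_sum, cst_nsmul]

theorem DR_add (b b' : X.I → ℝ) : X.DR (b + b') = X.DR b + X.DR b' := by
  simp only [DR, Pi.add_apply, add_smul, sum_add_distrib]

theorem DR_smul (t : ℝ) (b : X.I → ℝ) : X.DR (t • b) = t • X.DR b := by
  simp only [DR, Pi.smul_apply, smul_eq_mul, mul_smul, smul_sum]

theorem continuous_DR : Continuous X.DR := by
  unfold DR
  fun_prop

theorem mon_add (n n' : X.I → ℕ) : X.mon (n + n') = X.mon n * X.mon n' := by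
  simp only [mon, Pi.add_apply, pow_add, prod_mul_distrib]

theorem mon_zero : X.mon 0 = 1 := by simp [mon]

theorem mon_nsmul (k : ℕ) (n : X.I → ℕ) : X.mon (k • n) = X.mon n ^ k := by
  simp only [mon, Pi.smul_apply, smul_eq_mul, ← prod_pow, ← pow_mul, mul_comm]

theorem mon_single (i : X.I) (k : ℕ) : X.mon (Pi.single i k) = X.σ i ^ k := by
  rw [mon, prod_eq_single i] <;> simp +contextual

theorem mon_mem (n : X.I → ℕ) : X.mon n ∈ X.H (X.D n) :=
  X.fam.prod _ fun i _ => X.fam.pow (X.σ_mem i) _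

variable {X}

theorem mul_ne {a b : X.J → ℤ} {x y : X.R} (hx : x ∈ X.H a) (hy : y ∈ X.H b) (h1 : x ≠ 0)
    (h2 : y ≠ 0) : x * y ≠ 0 := fun h =>
  (X.prm hx hy ((Submodule.mem_bot O).2 h)).elim (fun h => h1 ((Submodule.mem_bot O).1 h))
    fun h => h2 ((Submodule.mem_bot O).1 h)

theorem pow_ne {a : X.J → ℤ} {x : X.R} (hx : x ∈ X.H a) (h : x ≠ 0) (k : ℕ) : x ^ k ≠ 0 := by
  induction k with
  | zero => rw [pow_zero]; exact X.nt
  | succ k ih => rw [pow_succ]; exact mul_ne (X.fam.pow hx k) hx ih h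

theorem mon_ne (n : X.I → ℕ) : X.mon n ≠ 0 := fun h =>
  Prm.prod_notMem (P := fun _ => ⊥) X.fam X.prm (fun h => X.nt ((Submodule.mem_bot O).1 h)) univ
    (fun i _ => X.fam.pow (X.σ_mem i) (n i))
    (fun i _ h => pow_ne (X.σ_mem i) (X.σ_ne i) _ ((Submodule.mem_bot O).1 h))
    ((Submodule.mem_bot O).2 h)

theorem cancel {a b : X.J → ℤ} {w x y : X.R} (hw : w ∈ X.H a) (h0 : w ≠ 0) (hx : x ∈ X.H b)
    (hy : y ∈ X.H b) (h : w * x = w * y) : x = y := by
  by_contra h1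
  exact mul_ne hw (sub_mem hx hy) h0 (sub_ne_zero.2 h1) (by rw [mul_sub, h, sub_self])

theorem mem_Dv {i : X.I} {k : ℕ} {a : X.J → ℤ} {x : X.R} :
    x ∈ X.Dv i k a ↔ ∃ z ∈ X.H (a - k • X.S i), X.σ i ^ k * z = x := Submodule.mem_map

theorem mem_Dv_one {i : X.I} {a : X.J → ℤ} {x : X.R} :
    x ∈ X.Dv i 1 a ↔ ∃ z ∈ X.H (a - X.S i), X.σ i * z = x := by
  rw [mem_Dv, one_smul, pow_one]

theorem idl_Dv (i : X.I) (k : ℕ) : Idl X.H (X.Dv i k) := by
  intro a b f g hf hg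
  obtain ⟨z, hz, rfl⟩ := mem_Dv.1 hg
  exact mem_Dv.2 ⟨f * z, by rw [add_sub_assoc]; exact X.fam.mul hf hz, by ring⟩

theorem Dv_le (i : X.I) (k : ℕ) (a : X.J → ℤ) : X.Dv i k a ≤ X.H a := by
  intro x hx
  obtain ⟨z, hz, rfl⟩ := mem_Dv.1 hx
  have := X.fam.mul (X.fam.pow (X.σ_mem i) k) hz
  rwa [add_sub_cancel] at this

theorem Un.one : X.Un 0 1 := ⟨X.fam.one, 1, by rw [neg_zero]; exact X.fam.one, one_mul 1⟩

theorem Un.mul {a b : X.J → ℤ} {u v : X.R} (hu : X.Un a u) (hv : X.Un b v) :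
    X.Un (a + b) (u * v) := by
  obtain ⟨h1, u', h2, h3⟩ := hu
  obtain ⟨h4, v', h5, h6⟩ := hv
  refine ⟨X.fam.mul h1 h4, u' * v', by rw [neg_add]; exact X.fam.mul h2 h5, ?_⟩
  rw [mul_mul_mul_comm, h3, h6, one_mul]

theorem Un.pow {a : X.J → ℤ} {u : X.R} (hu : X.Un a u) (k : ℕ) : X.Un (k • a) (u ^ k) := by
  induction k with
  | zero => rw [zero_smul, pow_zero]; exact Un.one
  | succ k ih => rw [succ_nsmul, pow_succ]; exact ih.mul hu

/-! ### the ample cone -/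

/-- the lineality space of the ample cone -/
def Lin (X : LM O) (v : X.J → ℝ) : Prop := ∀ t : ℝ, ∀ A ∈ X.Amp, A + t • v ∈ X.Amp

theorem Un.lin {a : X.J → ℤ} {u : X.R} (hu : X.Un a u) : X.Lin (cst a) := fun t A hA =>
  let ⟨h1, u', h2, h3⟩ := hu
  X.amp_un a u h1 u' h2 h3 t A hA

theorem Lin.zero : X.Lin 0 := fun _ _ h => by rwa [smul_zero, add_zero]

theorem Lin.add {v w : X.J → ℝ} (hv : X.Lin v) (hw : X.Lin w) : X.Lin (v + w) := fun t A h => by
  rw [smul_add, ← add_assoc]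
  exact hw t _ (hv t A h)

theorem Lin.smul {v : X.J → ℝ} (hv : X.Lin v) (s : ℝ) : X.Lin (s • v) := fun t A h => by
  rw [smul_smul]
  exact hv _ A h

theorem Lin.sum {ι : Type} (s : Finset ι) {v : ι → X.J → ℝ} (h : ∀ i ∈ s, X.Lin (v i)) :
    X.Lin (∑ i ∈ s, v i) :=
  sum_induction v X.Lin (fun _ _ => Lin.add) Lin.zero h

theorem Lin.add_mem {v A : X.J → ℝ} (hv : X.Lin v) (hA : A ∈ X.Amp) : A + v ∈ X.Amp := by
  simpa using hv 1 A hA

theorem amp_small {A : X.J → ℝ} (hA : A ∈ X.Amp) (v : X.J → ℝ) :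
    ∀ᶠ t : ℝ in 𝓝 0, A + t • v ∈ X.Amp := by
  have h : Continuous fun t : ℝ => A + t • v := by fun_prop
  exact h.continuousAt.eventually (X.amp_open.mem_nhds (by simpa using hA))

theorem exists_small {p : ℝ → Prop} (h : ∀ᶠ t in 𝓝 0, p t) : ∃ t, 0 < t ∧ t ≤ 1 ∧ p t := by
  have h1 : ∀ᶠ t : ℝ in 𝓝[>] 0, 0 < t ∧ t ≤ 1 ∧ p t :=
    (show ∀ᶠ t : ℝ in 𝓝[>] 0, 0 < t from self_mem_nhdsWithin).and
      (((eventually_le_nhds one_pos).and h).filter_mono nhdsWithin_le_nhds)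
  exact h1.exists

/-- nef classes -/
def Nef (X : LM O) (v : X.J → ℝ) : Prop := ∀ A ∈ X.Amp, v + A ∈ X.Amp

theorem Nef.smul {v : X.J → ℝ} (hv : X.Nef v) {t : ℝ} (ht : 0 ≤ t) : X.Nef (t • v) := by
  intro A hA
  rcases ht.eq_or_lt with rfl | ht
  · rwa [zero_smul, zero_add]
  · have h := X.amp_smul t ht _ (hv _ (X.amp_smul t⁻¹ (inv_pos.2 ht) A hA))
    rwa [smul_add, smul_smul, mul_inv_cancel₀ ht.ne', one_smul] at h

theorem Nef.sub_smul {v w : X.J → ℝ} (hv : X.Nef v) (h : v - w ∈ X.Amp) {t : ℝ} (ht : 0 < t)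
    (ht1 : t ≤ 1) : v - t • w ∈ X.Amp := by
  have h1 := hv.smul (sub_nonneg.2 ht1) _ (X.amp_smul t ht _ h)
  have e : (1 - t) • v + t • (v - w) = v - t • w := by module
  rwa [e] at h1

theorem Nef.add_lin {v w : X.J → ℝ} (hv : X.Nef v) (hw : X.Lin w) : X.Nef (v + w) := fun A hA => by
  rw [add_right_comm]
  exact hw.add_mem (hv A hA)

theorem nef_of_amp {v : X.J → ℝ} (hv : v ∈ X.Amp) : X.Nef v := X.amp_add v hv

/-! ### adjoint classes -/

theorem adj_add {v w : X.J → ℝ} (hv : v ∈ X.Adj) (hw : w ∈ X.Adj) : v + w ∈ X.Adj := by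
  obtain ⟨d, hd, A, hA, b, hb, rfl⟩ := hv
  obtain ⟨d', hd', A', hA', b', hb', rfl⟩ := hw
  have h0 : 0 < d + d' := add_pos hd hd'
  refine ⟨d + d', h0, (d + d')⁻¹ • (d • A + d' • A'), X.amp_smul _ (inv_pos.2 h0) _
    (X.amp_add _ (X.amp_smul d hd A hA) _ (X.amp_smul d' hd' A' hA')),
    (d + d')⁻¹ • (d • b + d' • b'), fun i => ⟨?_, ?_⟩, ?_⟩
  · have := (hb i).1
    have := (hb' i).1
    simp only [Pi.smul_apply, Pi.add_apply, smul_eq_mul]
    positivity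
  · simp only [Pi.smul_apply, Pi.add_apply, smul_eq_mul]
    rw [inv_mul_le_iff₀ h0]
    nlinarith [(hb i).2, (hb' i).2]
  · rw [DR_smul, DR_add, DR_smul, DR_smul, smul_add (d + d'), smul_add (d + d'), smul_smul,
      smul_smul (d + d'), mul_inv_cancel₀ h0.ne']
    module

theorem adj_of_closure {T : Set (X.J → ℤ)} (hT : ∀ t ∈ T, cst t ∈ X.Adj) {a : X.J → ℤ}
    (ha : a ∈ AddSubmonoid.closure T) : a = 0 ∨ cst a ∈ X.Adj := by
  induction ha using AddSubmonoid.closure_induction with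
  | mem t ht => exact Or.inr (hT t ht)
  | zero => exact Or.inl rfl
  | add a b _ _ ha hb =>
    rcases ha with rfl | ha
    · rwa [zero_add]
    rcases hb with rfl | hb
    · rw [add_zero]; exact Or.inr ha
    · rw [map_add]; exact Or.inr (adj_add ha hb)

/-- a normal form with integral data -/
theorem nf {a : X.J → ℤ} {κ : X.J → ℤ} {d : ℝ} (hd : 0 < d) {b : X.I → ℝ}
    (hb : ∀ l, 0 ≤ b l ∧ b l ≤ d) (h : cst a - d • cst κ - X.DR b ∈ X.Amp) :
    ∃ (k m : ℕ) (β : X.I → ℕ), 0 < k ∧ 0 < m ∧ (∀ l, β l < m) ∧ (∀ l, b l = 0 → β l = 0) ∧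
      cst (k • a - m • κ - X.D β) ∈ X.Amp := by
  obtain ⟨δ, hδ, -, h1⟩ := exists_small (amp_small h (-cst κ))
  let U : Set (Option X.I → ℝ) := {y | cst a - y none • cst κ - X.DR (fun l => y (some l)) ∈ X.Amp ∧
    0 < y none ∧ ∀ l, y (some l) < y none}
  have hU : IsOpen U := by
    have h2 : IsOpen {y : Option X.I → ℝ | ∀ l, y (some l) < y none} := by
      simp only [Set.ofPred_forall]
      exact isOpen_iInter_of_finite fun l => isOpen_lt (continuous_apply _) (continuous_apply _)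
    refine IsOpen.inter (X.amp_open.preimage ?_)
      ((isOpen_lt continuous_const (continuous_apply none)).inter h2)
    have := X.continuous_DR
    fun_prop
  obtain ⟨k, η, hk, ⟨h2, h3, h4⟩, h5⟩ := exists_rat hU (y := fun o => o.elim (d + δ) b)
    ⟨by convert h1 using 1; simp only [Option.elim]; module, add_pos hd hδ,
      fun l => (hb l).2.trans_lt (lt_add_of_pos_right d hδ)⟩
    fun o => by cases o; exacts [(add_pos hd hδ).le, (hb _).1]
  have hk' : (0 : ℝ) < k := Nat.cast_pos.2 hk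
  refine ⟨k, η none, fun l => η (some l), hk, ?_, fun l => ?_, fun l hl => h5 (some l) hl, ?_⟩
  · exact_mod_cast (div_pos_iff_of_pos_right hk').1 h3
  · exact_mod_cast (div_lt_div_iff_of_pos_right hk').1 (h4 l)
  · have e : (fun l => (η (some l) : ℝ)) = (k : ℝ) • fun l => (η (some l) : ℝ) / k := by
      ext l
      simp only [Pi.smul_apply, smul_eq_mul]
      field_simp
    have h6 := X.amp_smul k hk' _ h2
    rw [smul_sub, smul_sub, smul_smul, mul_div_cancel₀ _ hk'.ne', ← DR_smul, ← e] at h6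
    rwa [map_sub, map_sub, cst_nsmul, cst_nsmul, cst_D]

theorem nf_adj {a : X.J → ℤ} (h : cst a ∈ X.Adj) :
    ∃ (k m : ℕ) (β : X.I → ℕ), 0 < k ∧ 0 < m ∧ (∀ l, β l < m) ∧
      cst (k • a - m • X.K - X.D β) ∈ X.Amp := by
  obtain ⟨d, hd, A, hA, b, hb, h⟩ := h
  obtain ⟨k, m, β, h1, h2, h3, -, h4⟩ := nf (a := a) (κ := X.K) hd (b := d • b)
    (fun l => ⟨mul_nonneg hd.le (hb l).1, mul_le_of_le_one_right hd.le (hb l).2⟩) (by
      have e : cst a - d • cst X.K - X.DR (d • b) = d • A := by rw [h, DR_smul]; module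
      rw [e]
      exact X.amp_smul d hd A hA)
  exact ⟨k, m, β, h1, h2, h3, h4⟩

end LM

theorem Res.pr {X : LM O} {i : X.I} {Y : LM O} (Z : Res X i Y) :
    Prm X.H (X.Dv i 1) ∧ (1 : X.R) ∉ X.Dv i 1 0 ∧
      ∀ j, j ≠ i → X.σ j ∉ X.Dv i 1 (X.S j) := by
  refine ⟨fun {a b f g} hf hg h => ?_, fun h => Y.nt ?_, fun j hj h => ?_⟩
  · have h1 := (Z.ker _ _ (X.fam.mul hf hg)).2 h
    rw [map_mul] at h1
    by_contra h2
    rw [not_or] at h2
    exact LM.mul_ne (Z.mem _ _ hf) (Z.mem _ _ hg) (fun h => h2.1 ((Z.ker _ _ hf).1 h))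
      (fun h => h2.2 ((Z.ker _ _ hg).1 h)) h1
  · rw [← map_one Z.ρ]
    exact (Z.ker _ _ X.fam.one).2 h
  · obtain ⟨u, ⟨hu, u', -, huu⟩, h1⟩ := Z.pull j hj
    rw [(Z.ker _ _ (X.σ_mem j)).2 h] at h1
    refine LM.mul_ne hu (Y.mon_mem _) (fun h => Y.nt ?_) (LM.mon_ne _) h1.symm
    rw [← huu, h, zero_mul]

theorem Cls.pr {G : ℕ → LM O → Prop} (h : Cls G) {n : ℕ} {X : LM O} (hX : G n X) : X.Pr := by
  intro i
  cases n with
  | zero => exact ((h.zero X hX).1.false i).elim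
  | succ n =>
    obtain ⟨Y, -, Z, -⟩ := h.res n X i hX
    exact Z.pr

end P277Z.FG
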