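import Vale.Agent.P277Z.Gr.Defs

/-!
# P277, finite generation: the abstract layer

`LM O` is the algebraic shadow of a log smooth model: a lattice `J → ℤ` of line bundles, the modules
`H a` of sections (inside one ring `R`), the canonical class `K`, boundary components `S i` with
equations `σ i`, the ample cone `Amp`. `Res` is the restriction to a boundary component, `Blow` a
birational modification. `Cls` lists what geometry has to provide.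
-/

noncomputable section

namespace P277Z.FG

open Gr

/-- real points of the lattice -/
def cst {J : Type} : (J → ℤ) →+ (J → ℝ) where
  toFun v j := v j
  map_zero' := by ext; simp
  map_add' v w := by ext; simp

/-- real extension of a lattice map -/
def rl {J J' : Type} [Fintype J] (r : Matrix J' J ℤ) (v : J → ℝ) : J' → ℝ :=
  (r.map (Int.cast : ℤ → ℝ)).mulVec v

/-- The algebraic shadow of a log smooth model. -/
structure LM (O : Type) [CommRing O] where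
  J : Type
  [fJ : Fintype J]
  [dJ : DecidableEq J]
  I : Type
  [fI : Fintype I]
  [dI : DecidableEq I]
  R : Type
  [cR : CommRing R]
  [aR : Algebra O R]
  H : (J → ℤ) → Submodule O R
  fam : Fam H
  prm : Prm H fun _ => ⊥
  nt : (1 : R) ≠ 0
  fin : ∀ a, (H a).FG
  K : J → ℤ
  S : I → J → ℤ
  σ : I → R
  σ_mem : ∀ i, σ i ∈ H (S i)
  σ_ne : ∀ i, σ i ≠ 0
  sep : ∀ i a x, x ∈ H a → (∀ k : ℕ, ∃ z ∈ H (a - k • S i), x = σ i ^ k * z) → x = 0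
  Amp : Set (J → ℝ)
  amp_open : IsOpen Amp
  amp_add : ∀ v ∈ Amp, ∀ w ∈ Amp, v + w ∈ Amp
  amp_smul : ∀ t : ℝ, 0 < t → ∀ v ∈ Amp, t • v ∈ Amp
  amp_un : ∀ a, ∀ u ∈ H a, ∀ u' ∈ H (-a), u * u' = 1 → ∀ t : ℝ, ∀ v ∈ Amp, v + t • cst a ∈ Amp
  /-- `S i` and `S j` are disjoint -/
  dis : I → I → Prop
  dis_symm : ∀ i j, dis i j → dis j i

attribute [instance] LM.fJ LM.dJ LM.fI LM.dI LM.cR LM.aR

variable {O : Type} [CommRing O]

namespace LM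

variable (X : LM O)

/-- the effective divisor `∑ n i • S i` -/
def D (n : X.I → ℕ) : X.J → ℤ := ∑ i, n i • X.S i

/-- the real divisor `∑ b i • S i` -/
def DR (b : X.I → ℝ) : X.J → ℝ := ∑ i, b i • cst (X.S i)

/-- the equation of `D n` -/
def mon (n : X.I → ℕ) : X.R := ∏ i, X.σ i ^ n i

/-- `u` is a nowhere vanishing section of degree `a` -/
def Un (a : X.J → ℤ) (u : X.R) : Prop := u ∈ X.H a ∧ ∃ u' ∈ X.H (-a), u * u' = 1

/-- the sections of degree `a` vanishing to order `k` along `S i` -/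
def Dv (i : X.I) (k : ℕ) (a : X.J → ℤ) : Submodule O X.R :=
  (X.H (a - k • X.S i)).map (LinearMap.mulLeft O (X.σ i ^ k))

/-- the order of vanishing along `S i` is `k` -/
def Ord (i : X.I) (a : X.J → ℤ) (x : X.R) (k : ℕ) : Prop :=
  x ∈ X.Dv i k a ∧ x ∉ X.Dv i (k + 1) a

/-- the cone over the adjoint classes `K + A + B` -/
def Adj : Set (X.J → ℝ) :=
  {v | ∃ d : ℝ, 0 < d ∧ ∃ A ∈ X.Amp, ∃ b : X.I → ℝ, (∀ i, 0 ≤ b i ∧ b i ≤ 1) ∧
    v = d • (cst X.K + A + X.DR b)}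

/-- `P` is a family of pairwise disjoint components, not containing `i` -/
def Ind (i : X.I) (P : Finset X.I) : Prop := i ∉ P ∧ ∀ j ∈ P, ∀ l ∈ P, j ≠ l → X.dis j l

/-- `β / m` is a boundary without `S i` whose big part is supported on `P` -/
def Sb (i : X.I) (P : Finset X.I) (m : ℕ) (β : X.I → ℕ) : Prop :=
  β i = 0 ∧ ∀ j, (if j ∈ P then β j else 0) + ∑ l ∈ Pᶜ, β l ≤ m

/-- the ample part `a - m (K + S i) - β` -/
def amp (i : X.I) (m : ℕ) (β : X.I → ℕ) (a : X.J → ℤ) : X.J → ℝ :=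
  cst (a - m • (X.K + X.S i) - X.D β)

/-- `a = m (K + S i + A) + β` -/
def AdjS (i : X.I) (P : Finset X.I) (m : ℕ) (β : X.I → ℕ) (a : X.J → ℤ) : Prop :=
  0 < m ∧ X.Sb i P m β ∧ X.amp i m β a ∈ X.Amp

/-- the components are distinct prime divisors -/
def Pr : Prop := ∀ c, Prm X.H (X.Dv c 1) ∧ (1 : X.R) ∉ X.Dv c 1 0 ∧
  ∀ c', c' ≠ c → X.σ c' ∉ X.Dv c 1 (X.S c')

/-- Theorem A: adjoint rings are finitely generated. -/
def ThA : Prop := ∀ T : Finset (X.J → ℤ), (∀ t ∈ T, cst t ∈ X.Adj) →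
  FG X.H (AddSubmonoid.closure (T : Set (X.J → ℤ)))

/-- Theorem B: the effective adjoint classes form a rational polyhedral cone. -/
def ThB : Prop := ∀ T : Finset (X.J → ℤ), (∀ t ∈ T, cst t ∈ X.Adj) →
  ∃ T' : Finset (X.J → ℤ), (∀ t ∈ T', t ∈ AddSubmonoid.closure (T : Set (X.J → ℤ)) ∧ X.H t ≠ ⊥) ∧
    ∀ a ∈ AddSubmonoid.closure (T : Set (X.J → ℤ)), X.H a ≠ ⊥ →
      ∃ m : ℕ, 0 < m ∧ m • a ∈ AddSubmonoid.closure (T' : Set (X.J → ℤ))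

/-- Restricted rings are finitely generated when the big part of the boundary is disjoint. -/
def ThR (i : X.I) : Prop := ∀ (P : Finset X.I), X.Ind i P → ∀ T : Finset (X.J → ℤ),
  (∀ t ∈ T, ∃ m β, X.AdjS i P m β t) →
  FGm X.H (X.Dv i 1) (AddSubmonoid.closure (T : Set (X.J → ℤ)))

end LM

/-- `Y` is the component `S i` of `X`. -/
structure Res (X : LM O) (i : X.I) (Y : LM O) where
  r : Matrix Y.J X.J ℤ
  ρ : X.R →ₐ[O] Y.R
  /-- the component `c` of the boundary of `Y` lies in `S (p c)` -/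
  p : Y.I → X.I
  p_ne : ∀ c, p c ≠ i
  mem : ∀ a, ∀ x ∈ X.H a, ρ x ∈ Y.H (r.mulVec a)
  ker : ∀ a, ∀ x ∈ X.H a, ρ x = 0 ↔ x ∈ X.Dv i 1 a
  K_eq : ∃ u, Y.Un (r.mulVec (X.K + X.S i) - Y.K) u
  pull : ∀ j, j ≠ i → ∃ u, Y.Un (r.mulVec (X.S j) - Y.D fun c => if p c = j then 1 else 0) u ∧
    ρ (X.σ j) = u * Y.mon fun c => if p c = j then 1 else 0
  amp : ∀ A ∈ X.Amp, rl r A ∈ Y.Amp

/-- `Y` is a birational modification of `X`. -/
structure Blow (X Y : LM O) where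
  r : Matrix Y.J X.J ℤ
  φ : X.R →ₐ[O] Y.R
  exc : Y.I → Prop
  /-- the pull back of `S i` is `∑ m i j • S j` -/
  m : X.I → Y.I → ℕ
  /-- the relative canonical divisor -/
  a : Y.I → ℕ
  mem : ∀ b, ∀ x ∈ X.H b, φ x ∈ Y.H (r.mulVec b)
  inj : ∀ b, ∀ x ∈ X.H b, φ x = 0 → x = 0
  surj : ∀ b (e : Y.I → ℕ), (∀ j, e j ≠ 0 → exc j) → ∀ y ∈ Y.H (r.mulVec b + Y.D e),
    ∃ x ∈ X.H b, y = Y.mon e * φ x
  K_eq : ∃ u, Y.Un (r.mulVec X.K + Y.D a - Y.K) u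
  a_exc : ∀ j, a j ≠ 0 → exc j
  lc : ∀ j, ∑ i, m i j ≤ 1 + a j
  pull : ∀ i, ∃ u, Y.Un (r.mulVec (X.S i) - Y.D (m i)) u ∧ φ (X.σ i) = u * Y.mon (m i)
  amp : ∃ h : Y.I → ℕ, (∀ j, h j ≠ 0 → exc j) ∧ ∀ A ∈ X.Amp, ∃ ε : ℝ, 0 < ε ∧
    rl r A - ε • cst (Y.D h) ∈ Y.Amp
  nef : ∀ A ∈ X.Amp, ∀ A' ∈ Y.Amp, rl r A + A' ∈ Y.Amp

/-- `Y` is the blow up of `S j ∩ S l`; `s i` is the strict transform of `S i`. -/
structure BlowC (X : LM O) (j l : X.I) (Y : LM O) extends Blow X Y where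
  s : X.I → Y.I
  s_inj : Function.Injective s
  exc_iff : ∀ c, exc c ↔ c ∉ Set.range s
  m_s : ∀ i i', m i (s i') = if i = i' then 1 else 0
  m_exc : ∀ i c, exc c → m i c = if i = j ∨ i = l then 1 else 0
  a_eq : ∀ c, exc c → a c = 1
  dis_jl : Y.dis (s j) (s l)
  dis_s : ∀ i i', X.dis i i' → Y.dis (s i) (s i')
  dis_exc : ∀ c c', exc c → exc c' → c ≠ c' → Y.dis c c'

/-- Extension of sections from `S i` (Cascini, Lazic, Theorem 3.4, with slack). -/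
def Res.Ext {X : LM O} {i : X.I} {Y : LM O} (Z : Res X i Y) : Prop :=
  ∀ P m β a, X.Ind i P → X.AdjS i P m β a → ∀ u ∈ Y.H (Z.r.mulVec a), ∀ o : Y.I → ℕ,
    (∀ c, u ∈ Y.Dv c (o c) (Z.r.mulVec a)) →
    (∀ η : ℝ, 0 < η → ∃ (q : ℕ) (ν : X.J → ℤ) (θ : X.R) (v : Y.I → ℕ), 0 < q ∧ θ ∈ X.H ν ∧
      (∀ c, Y.Ord c (Z.r.mulVec ν) (Z.ρ θ) (v c)) ∧ Z.ρ θ ≠ 0 ∧
      (q : ℝ) • (cst a + (m : ℝ)⁻¹ • X.amp i m β a) - cst ν ∈ X.Amp ∧
      ∀ c, ((min (q * β (Z.p c)) (v c) : ℕ) : ℝ) ≤ q * (o c + η)) →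
    ∃ x ∈ X.H a, Z.ρ x = u

/-- What geometry provides: a class `G n` of models of dimension `n`. -/
structure Cls (G : ℕ → LM O → Prop) : Prop where
  zero : ∀ X, G 0 X → IsEmpty X.I ∧ ∀ a, X.H a ≠ ⊥
  res : ∀ n X i, G (n + 1) X → ∃ Y, G n Y ∧ ∃ Z : Res X i Y, Z.Ext
  blow : ∀ n X, G n X → ∀ T : Finset ((X.J → ℤ) × X.R), (∀ t ∈ T, t.2 ∈ X.H t.1 ∧ t.2 ≠ 0) →
    ∃ Y, G n Y ∧ ∃ Z : Blow X Y, ∀ t ∈ T, ∃ e u, Y.Un (Z.r.mulVec t.1 - Y.D e) u ∧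
      Z.φ t.2 = u * Y.mon e
  blowC : ∀ n X, G n X → ∀ j l, j ≠ l → ¬ X.dis j l → ∃ Y, G n Y ∧ Nonempty (BlowC X j l Y)

/-- FG-4 (to be proved for `O` noetherian, containing `ℚ`) -/
def S4 (O : Type) [CommRing O] : Prop := ∀ (X : LM O) (i : X.I) (Y : LM O) (Z : Res X i Y),
  Z.Ext → Y.Pr → Y.ThA → Y.ThB → X.ThR i

/-- FG-5 -/
def S5 (G : ℕ → LM O → Prop) : Prop := ∀ n, (∀ k ≤ n, ∀ Y, G k Y → Y.ThA ∧ Y.ThB) →
  ∀ X, G (n + 1) X → X.ThB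

/-- FG-6 (to be proved for `O` noetherian, containing `ℚ`) -/
def S6 (O : Type) [CommRing O] : Prop := ∀ G : ℕ → LM O → Prop, Cls G → S4 O → S5 G →
  ∀ n X, G n X → X.ThA ∧ X.ThB

end P277Z.FG
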