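import Vale.Agent.P277Z.FG.Trf

/-!
# P277, finite generation: restricted rings (Cascini, Lazic, Lemma 6.2)
-/

noncomputable section

namespace P277Z.FG

open Gr Finset Filter Topology

variable {O : Type} [CommRing O]

namespace LM

/-- nef, and ample up to a boundary without `S i` -/
def NB (X : LM O) (i : X.I) (v : X.J → ℝ) : Prop :=
  X.Nef v ∧ ∃ h : X.I → ℝ, (∀ l, 0 ≤ h l) ∧ h i = 0 ∧ v - X.DR h ∈ X.Amp

/-- adjoint degrees with boundaries bounded by `γ / N` -/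
structure Dat (X : LM O) (i : X.I) (N : ℕ) (γ : X.I → ℕ) {ι : Type} (t : ι → X.J → ℤ) : Prop where
  zero : γ i = 0
  lt : ∀ l, γ l < N
  ex : ∀ s, ∃ (m : ℕ) (β : X.I → ℕ), 0 < m ∧ (∀ l, N * β l ≤ γ l * m) ∧ X.NB i (X.amp i m β (t s))

/-- two components with positive coefficients which meet -/
def Bad (X : LM O) (γ : X.I → ℕ) (q : X.I × X.I) : Prop :=
  q.1 ≠ q.2 ∧ 0 < γ q.1 ∧ 0 < γ q.2 ∧ ¬ X.dis q.1 q.2

variable {X : LM O}

theorem amp_def (i : X.I) (m : ℕ) (β : X.I → ℕ) (a : X.J → ℤ) :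
    X.amp i m β a = cst (a - m • X.K - X.D (β + Pi.single i m)) := by
  rw [amp, D_add, D_single, smul_add]
  congr 1
  abel

theorem Dat.adjS {i : X.I} {N : ℕ} {γ : X.I → ℕ} {ι : Type} {t : ι → X.J → ℤ}
    (h : X.Dat i N γ t) (P : Finset X.I) (hP : ∀ l, l ∉ P → γ l = 0) (s : ι) :
    ∃ k, 0 < k ∧ ∃ m β, X.AdjS i P m β (k • t s) := by
  have hN : 0 < N := Nat.zero_lt_of_lt (h.lt i)
  obtain ⟨m, β, hm, hβ, hnef, g, hg, hgi, hA⟩ := h.ex s
  have hmN : (0 : ℝ) < m / N := by positivity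
  have h2 : ∀ᶠ ε : ℝ in 𝓝 0, ε * ∑ l, g l < m / N := by
    have h3 : Continuous fun ε : ℝ => ε * ∑ l, g l := by fun_prop
    exact h3.continuousAt.eventually (gt_mem_nhds (by simpa using hmN))
  obtain ⟨ε, hε, hε1, h3⟩ := exists_small h2
  have hU : IsOpen {y : X.I → ℝ | X.amp i m β (t s) - X.DR y ∈ X.Amp ∧ ∑ l, y l < m / N} := by
    have h4 : Continuous fun y : X.I → ℝ => X.amp i m β (t s) - X.DR y :=
      continuous_const.sub X.continuous_DR
    have h5 : Continuous fun y : X.I → ℝ => ∑ l, y l := by fun_prop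
    exact (X.amp_open.preimage h4).inter (isOpen_lt h5 continuous_const)
  obtain ⟨k, η, hk, ⟨h4, h5⟩, h6⟩ := exists_rat hU (y := ε • g)
    ⟨by rw [DR_smul]; exact hnef.sub_smul hA hε hε1, by simpa [mul_sum] using h3⟩
    fun l => mul_nonneg hε.le (hg l)
  have hk' : (0 : ℝ) < k := Nat.cast_pos.2 hk
  have h7 : N * ∑ l, η l ≤ k * m := by
    rw [← sum_div, div_lt_div_iff₀ hk' (Nat.cast_pos.2 hN)] at h5
    have h8 : (∑ l, η l) * N < m * k := by exact_mod_cast h5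
    rw [mul_comm N, mul_comm k]
    exact h8.le
  have h0 : ∀ l, γ l = 0 → β l = 0 := fun l hl => by
    have := hβ l
    rw [hl, zero_mul] at this
    exact (Nat.mul_eq_zero.1 (Nat.le_zero.1 this)).resolve_left hN.ne'
  refine ⟨k, hk, k * m, k • β + η, Nat.mul_pos hk hm, ⟨?_, fun j => ?_⟩, ?_⟩
  · simp [h0 i h.zero, h6 i (by simp [hgi])]
  · have h8 : ∑ l ∈ Pᶜ, (k • β + η) l = ∑ l ∈ Pᶜ, η l := sum_congr rfl fun l hl => by
      simp [h0 l (hP l (mem_compl.1 hl))]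
    have h9 : (if j ∈ P then η j else 0) + ∑ l ∈ Pᶜ, η l ≤ ∑ l, η l := by
      rw [← sum_add_sum_compl P]
      refine Nat.add_le_add_right ?_ _
      split_ifs with hj
      exacts [single_le_sum (f := η) (fun _ _ => Nat.zero_le _) hj, Nat.zero_le _]
    have h10 : k * β j + ∑ l, η l ≤ k * m := by
      refine Nat.le_of_mul_le_mul_left ?_ hN
      have h11 := Nat.mul_le_mul_left k (hβ j)
      have h12 := Nat.mul_le_mul_right (k * m) (h.lt j)
      generalize ∑ l, η l = z at h7 ⊢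
      calc N * (k * β j + z) = k * (N * β j) + N * z := by ring
        _ ≤ k * (γ j * m) + k * m := add_le_add h11 h7
        _ = (γ j + 1) * (k * m) := by ring
        _ ≤ _ := h12
    rw [h8]
    split_ifs at h9 ⊢
    · simp only [Pi.add_apply, Pi.smul_apply, smul_eq_mul]
      omega
    · omega
  · have e : (fun l => (η l : ℝ)) = (k : ℝ) • fun l => (η l : ℝ) / k := by
      ext l
      simp only [Pi.smul_apply, smul_eq_mul]
      field_simp
    have h8 := X.amp_smul k hk' _ h4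
    rw [smul_sub, ← DR_smul, ← e, ← cst_D, amp, ← cst_nsmul, ← map_sub] at h8
    rw [amp, D_add, D_nsmul, mul_smul]
    convert h8 using 2
    rw [smul_sub, smul_sub]
    abel

theorem Pr.of_mul [IsNoetherianRing O] (hX : X.Pr) (i : X.I) {ι : Type} [Finite ι]
    (d : ι → X.J → ℤ) (k : ι → ℕ) (hk : ∀ s, 0 < k s)
    (h : FGm X.H (X.Dv i 1) (AddSubmonoid.closure (Set.range fun s => k s • d s))) :
    FGm X.H (X.Dv i 1) (AddSubmonoid.closure (Set.range d)) := by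
  obtain ⟨hP, -⟩ := hX i
  exact fgm_of_mul (N := X.Dv i 1) X.fam (@idl_Dv _ _ X i 1) (@hP) d k hk h

theorem Dat.base [IsNoetherianRing O] {i : X.I} {N : ℕ} {γ : X.I → ℕ} {ι : Type} [Finite ι]
    {t : ι → X.J → ℤ} (h : X.Dat i N γ t) (hX : X.Pr) (hR : X.ThR i) (hb : ∀ q, ¬ X.Bad γ q) :
    FGm X.H (X.Dv i 1) (AddSubmonoid.closure (Set.range t)) := by
  classical
  have := Fintype.ofFinite ι
  let P : Finset X.I := univ.filter fun l => 0 < γ l
  have hP : X.Ind i P := ⟨by simp [P, h.zero], fun j hj l hl hjl => by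
    by_contra h1
    exact hb (j, l) ⟨hjl, (mem_filter.1 hj).2, (mem_filter.1 hl).2, h1⟩⟩
  choose k hk h1 using h.adjS P fun l hl => by simpa [P] using hl
  refine hX.of_mul i t k hk ?_
  have h2 := hR P hP (univ.image fun s => k s • t s) fun a ha => by
    obtain ⟨s, -, rfl⟩ := mem_image.1 ha
    exact h1 s
  rwa [coe_image, coe_univ, Set.image_univ] at h2

end LM

namespace BlowC

variable {X Y : LM O} {j l : X.I} (Z : BlowC X j l Y)

theorem not_exc (i : X.I) : ¬ Z.exc (Z.s i) := fun h => (Z.exc_iff _).1 h ⟨i, rfl⟩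

theorem a_s (i : X.I) : Z.a (Z.s i) = 0 := by
  by_contra h
  exact Z.not_exc i (Z.a_exc _ h)

theorem bd_s (m : ℕ) (β : X.I → ℕ) (i : X.I) : Z.bd m β (Z.s i) = β i := by
  simp [Blow.bd, Blow.pl_apply, Z.a_s, Z.m_s]

theorem bd_exc (hjl : j ≠ l) (m : ℕ) (β : X.I → ℕ) {c : Y.I} (hc : Z.exc c) :
    Z.bd m β c = β j + β l - m := by
  rw [Blow.bd, Blow.pl_apply, Z.a_eq c hc, mul_one, sum_eq_add j l hjl]
  · simp [Z.m_exc _ c hc]
  · intro i _ hi
    simp [Z.m_exc _ c hc, hi.1, hi.2]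
  · simp
  · simp

theorem m_eq {i : X.I} (hj : i ≠ j) (hl : i ≠ l) : Z.m i = Pi.single (Z.s i) 1 := by
  ext c
  by_cases hc : Z.exc c
  · rw [Z.m_exc _ c hc, if_neg (not_or.2 ⟨hj, hl⟩), Pi.single_eq_of_ne]
    rintro rfl
    exact Z.not_exc i hc
  · obtain ⟨i', rfl⟩ := not_not.1 (mt (Z.exc_iff c).2 hc)
    rw [Z.m_s, Pi.single_apply]
    exact if_congr ⟨fun h => h ▸ rfl, fun h => (Z.s_inj h).symm⟩ rfl rfl

theorem cases (c : Y.I) : Z.exc c ∨ ∃ i, Z.s i = c := by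
  by_cases hc : Z.exc c
  exacts [Or.inl hc, Or.inr (not_not.1 (mt (Z.exc_iff c).2 hc))]

theorem dat (hjl : j ≠ l) {i : X.I} (hj : i ≠ j) (hl : i ≠ l) {N : ℕ} {γ : X.I → ℕ} {ι : Type}
    {t : ι → X.J → ℤ} (h : X.Dat i N γ t) : ∃ e : ι → Y.I → ℕ, (∀ s c, e s c ≠ 0 → Z.exc c) ∧
      Y.Dat (Z.s i) N (Z.bd N γ) fun s => Z.r.mulVec (t s) + Y.D (e s) := by
  choose m β hm hβ hnb using h.ex
  refine ⟨fun s => Z.ex (m s) (β s + Pi.single i (m s)), fun s => Z.ex_exc _ _,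
    by rw [Z.bd_s, h.zero], Z.bd_lt (Nat.zero_lt_of_lt (h.lt i)) h.lt,
    fun s => ⟨m s, Z.bd (m s) (β s), hm s, fun c => ?_, ?_⟩⟩
  · rcases Z.cases c with hc | ⟨i', rfl⟩
    · rw [Z.bd_exc hjl _ _ hc, Z.bd_exc hjl _ _ hc, Nat.mul_sub, Nat.sub_mul, mul_add, add_mul]
      have := hβ s j
      have := hβ s l
      omega
    · rw [Z.bd_s, Z.bd_s]
      exact hβ s i'
  · have h1 : Z.bd (m s) (β s) + Pi.single (Z.s i) (m s) =
        Z.bd (m s) (β s + Pi.single i (m s)) := by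
      ext c
      rcases Z.cases c with hc | ⟨i', rfl⟩
      · rw [Pi.add_apply, Z.bd_exc hjl _ _ hc, Z.bd_exc hjl _ _ hc, Pi.single_eq_of_ne]
        · simp [Pi.single_eq_of_ne hj.symm, Pi.single_eq_of_ne hl.symm]
        · rintro rfl
          exact Z.not_exc i hc
      · rw [Pi.add_apply, Z.bd_s, Z.bd_s, Pi.add_apply, Pi.single_apply, Pi.single_apply]
        exact congrArg _ (if_congr Z.s_inj.eq_iff rfl rfl)
    obtain ⟨w, hw, h2⟩ := Z.amp_eq (t s) (m s) (β s + Pi.single i (m s))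
    obtain ⟨hnef, g, hg, hgi, hA⟩ := hnb s
    obtain ⟨g', h3, h4, h5⟩ := Z.big_pull hg hA
    rw [LM.amp_def, h1, h2, ← LM.amp_def]
    refine ⟨(Z.nef_pull hnef hA).add_lin hw, g', h3, h4 _ (Z.not_exc i) fun i' hi' => ?_, ?_⟩
    · rw [Z.m_s, if_neg]
      rintro rfl
      exact hi' hgi
    · rw [add_sub_right_comm]
      exact hw.add_mem h5

theorem bad (hjl : j ≠ l) {N : ℕ} {γ : X.I → ℕ} (hγ : ∀ i, γ i < N) {q : Y.I × Y.I}
    (hq : Y.Bad (Z.bd N γ) q) : Z.bd N γ q.1 + Z.bd N γ q.2 < γ j + γ l ∨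
      ∃ p : X.I × X.I, X.Bad γ p ∧ p ≠ (j, l) ∧ Prod.map Z.s Z.s p = q ∧
        Z.bd N γ q.1 + Z.bd N γ q.2 = γ p.1 + γ p.2 := by
  obtain ⟨c, c'⟩ := q
  obtain ⟨h1, h2, h3, h4⟩ := hq
  dsimp only at h1 h2 h3 h4 ⊢
  rcases Z.cases c with hc | ⟨a, rfl⟩ <;> rcases Z.cases c' with hc' | ⟨b, rfl⟩
  · exact (h4 (Z.dis_exc c c' hc hc' h1)).elim
  · rw [Z.bd_exc hjl _ _ hc] at h2 ⊢
    rw [Z.bd_s]
    have := hγ b
    omega
  · rw [Z.bd_exc hjl _ _ hc'] at h3 ⊢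
    rw [Z.bd_s]
    have := hγ a
    omega
  · rw [Z.bd_s] at h2 h3
    refine Or.inr ⟨(a, b), ⟨fun h => h1 (congrArg Z.s h), h2, h3, fun h => h4 (Z.dis_s a b h)⟩,
      fun h => ?_, rfl, by rw [Z.bd_s, Z.bd_s]⟩
    obtain ⟨rfl, rfl⟩ := Prod.mk.inj h
    exact h4 Z.dis_jl

end BlowC

variable [IsNoetherianRing O] {G : ℕ → LM O → Prop}

theorem Cls.ind (hG : Cls G) {n : ℕ} (hR : ∀ X, G n X → ∀ i, X.ThR i) (N : ℕ) {ι : Type}
    [Fintype ι] (s : ℕ) : ∀ (X : LM O) (i : X.I) (γ : X.I → ℕ) (t : ι → X.J → ℤ), G n X →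
      X.Dat i N γ t → (∀ q, X.Bad γ q → γ q.1 + γ q.2 < s) →
      FGm X.H (X.Dv i 1) (AddSubmonoid.closure (Set.range t)) := by
  induction s with
  | zero => exact fun X i γ t hX h hb => h.base (hG.pr hX) (hR X hX i) fun q hq =>
      Nat.not_lt_zero _ (hb q hq)
  | succ s ih =>
    have key : ∀ (c : ℕ) (X : LM O) (i : X.I) (γ : X.I → ℕ) (t : ι → X.J → ℤ), G n X →
        X.Dat i N γ t → (∀ q, X.Bad γ q → γ q.1 + γ q.2 < s + 1) →
        {q | X.Bad γ q ∧ γ q.1 + γ q.2 = s}.ncard < c →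
        FGm X.H (X.Dv i 1) (AddSubmonoid.closure (Set.range t)) := by
      intro c
      induction c with
      | zero => exact fun _ _ _ _ _ _ _ h => (Nat.not_lt_zero _ h).elim
      | succ c ihc =>
        intro X i γ t hX h hb hc
        by_cases h1 : ∃ q, X.Bad γ q ∧ γ q.1 + γ q.2 = s
        swap
        · exact ih X i γ t hX h fun q hq =>
            lt_of_le_of_ne (Nat.lt_succ_iff.1 (hb q hq)) fun h2 => h1 ⟨q, hq, h2⟩
        obtain ⟨⟨j, l⟩, hq, hs⟩ := h1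
        obtain ⟨Y, hY, ⟨Z⟩⟩ := hG.blowC n X hX j l hq.1 hq.2.2.2
        have hj : i ≠ j := fun e => hq.2.1.ne' (e ▸ h.zero)
        have hl : i ≠ l := fun e => hq.2.2.1.ne' (e ▸ h.zero)
        obtain ⟨e, he, hd⟩ := Z.dat hq.1 hj hl h
        refine Z.trf t e he _ _ (@LM.idl_Dv _ _ Y (Z.s i) 1)
          (Z.ker_res (Z.m_eq hj hl) (Z.not_exc i) (hG.pr hY)) (ihc Y _ _ _ hY hd
            (fun q hq' => ?_) ?_)
        · rcases Z.bad hq.1 h.lt hq' with h2 | ⟨p, hp, -, -, h2⟩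
          · exact h2.trans (hb _ hq)
          · exact h2 ▸ hb p hp
        · have h2 : {q | Y.Bad (Z.bd N γ) q ∧ Z.bd N γ q.1 + Z.bd N γ q.2 = s} ⊆
              Prod.map Z.s Z.s '' ({q | X.Bad γ q ∧ γ q.1 + γ q.2 = s} \ {(j, l)}) := by
            rintro q ⟨hq', h3⟩
            rcases Z.bad hq.1 h.lt hq' with h2 | ⟨p, hp, h4, h5, h2⟩
            · exact absurd (h3.trans hs.symm) h2.ne
            · exact ⟨p, ⟨⟨hp, h2 ▸ h3⟩, h4⟩, h5⟩
          refine ((Set.ncard_le_ncard h2).trans (Set.ncard_image_le)).trans_lt ?_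
          have h3 : (j, l) ∈ {q | X.Bad γ q ∧ γ q.1 + γ q.2 = s} := ⟨hq, hs⟩
          exact (Set.ncard_sdiff_singleton_lt_of_mem h3).trans_le (Nat.lt_succ_iff.1 hc)
    exact fun X i γ t hX h hb => key _ X i γ t hX h hb (Nat.lt_succ_self _)

/-- **Restricted adjoint rings are finitely generated.** -/
theorem Cls.res_fg (hG : Cls G) {n : ℕ} (hR : ∀ X, G n X → ∀ i, X.ThR i) {X : LM O} (hX : G n X)
    (i : X.I) (S : AddSubmonoid (X.J → ℤ)) (hS : S.FG)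
    (h : ∀ a ∈ S, a = 0 ∨ ∃ (m : ℕ) (β : X.I → ℕ), 0 < m ∧ β i = 0 ∧ (∀ l, β l ≤ m) ∧
      X.amp i m β a ∈ X.Amp) : FGm X.H (X.Dv i 1) S := by
  classical
  obtain ⟨T, rfl⟩ := hS
  let ι := {a // a ∈ T ∧ a ≠ 0}
  have : Finite ι := (T.finite_toSet.subset fun a (ha : a ∈ T ∧ a ≠ 0) => ha.1).to_subtype
  have := Fintype.ofFinite ι
  have h1 : ∀ s : ι, ∃ (k m : ℕ) (β : X.I → ℕ), 0 < k ∧ 0 < m ∧ (∀ l, β l < m) ∧ β i = 0 ∧
      X.amp i m β (k • s.1) ∈ X.Amp := fun s => by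
    obtain ⟨m, β, hm, hi, hβ, hA⟩ :=
      (h s.1 (AddSubmonoid.subset_closure s.2.1)).resolve_left s.2.2
    obtain ⟨k, m', β', h1, h2, h3, h4, h5⟩ := LM.nf (a := s.1) (κ := X.K + X.S i)
      (Nat.cast_pos.2 hm) (b := fun l => β l)
      (fun l => ⟨Nat.cast_nonneg _, Nat.cast_le.2 (hβ l)⟩)
      (by rwa [← cst_nsmul, ← LM.cst_D, ← map_sub, ← map_sub])
    exact ⟨k, m', β', h1, h2, h3, h4 i (by simp [hi]), h5⟩
  choose k m β hk hm hβ hi hA using h1
  let N := ∑ s, m s + 1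
  have hN : ∀ s, m s < N := fun s => Nat.lt_succ_of_le
    (single_le_sum (f := m) (fun _ _ => Nat.zero_le _) (mem_univ s))
  have hd : X.Dat i N (Function.update (fun _ => N - 1) i 0) fun s : ι => k s • s.1 :=
    ⟨by simp, fun l => by
      rw [Function.update_apply]
      split_ifs <;> omega, fun s => ⟨m s, β s, hm s, fun l => by
      rw [Function.update_apply]
      split_ifs with hl
      · simp [hl, hi]
      · have h1 := Nat.mul_le_mul_left N (hβ s l)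
        have h2 := hN s
        rw [Nat.sub_mul, one_mul]
        rw [Nat.mul_succ] at h1
        omega, LM.nef_of_amp (hA s), 0, fun _ => le_rfl, rfl, by
      have : X.DR 0 = 0 := by simp [LM.DR]
      rw [this, sub_zero]
      exact hA s⟩⟩
  refine ((hG.pr hX).of_mul i (fun s : ι => s.1) k hk
    (hG.ind hR N (N + N) X i _ _ hX hd fun q _ => add_lt_add (hd.lt _) (hd.lt _))).mono
    (AddSubmonoid.closure_le.2 fun a ha => ?_)
  by_cases h0 : a = 0
  · rw [h0]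
    exact zero_mem _
  · exact AddSubmonoid.subset_closure ⟨⟨a, ha, h0⟩, rfl⟩

end P277Z.FG
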