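import Vale.Agent.P277Z.FG.Defs

/-!
# Orders of vanishing along the boundary components of an abstract model
-/

noncomputable section

namespace P277Z.FG.S4

open Gr

variable {O : Type} [CommRing O] {X : LM O} {i c : X.I} {a b : X.J → ℤ} {x y : X.R} {k l : ℕ}

theorem mem_dv : x ∈ X.Dv i k a ↔ ∃ z ∈ X.H (a - k • X.S i), X.σ i ^ k * z = x := Iff.rfl

theorem σ_pow (i : X.I) (k : ℕ) : X.σ i ^ k ∈ X.H (k • X.S i) := X.fam.pow (X.σ_mem i) k

theorem mul_mem' {e : X.J → ℤ} (hx : x ∈ X.H a) (hy : y ∈ X.H b) (h : a + b = e) :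
    x * y ∈ X.H e := h ▸ X.fam.mul hx hy

theorem dv_le (h : x ∈ X.Dv i k a) : x ∈ X.H a := by
  obtain ⟨z, hz, rfl⟩ := mem_dv.1 h
  exact mul_mem' (σ_pow i k) hz (by abel)

theorem dv_zero (h : x ∈ X.H a) : x ∈ X.Dv i 0 a := mem_dv.2 ⟨x, by simpa using h, by simp⟩

theorem dv_mul (hx : x ∈ X.Dv i k a) (hy : y ∈ X.Dv i l b) : x * y ∈ X.Dv i (k + l) (a + b) := by
  obtain ⟨z, hz, rfl⟩ := mem_dv.1 hx
  obtain ⟨w, hw, rfl⟩ := mem_dv.1 hy
  exact mem_dv.2 ⟨z * w, mul_mem' hz hw (by rw [add_nsmul]; abel), by ring⟩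

theorem dv_anti (h : k ≤ l) (hx : x ∈ X.Dv i l a) : x ∈ X.Dv i k a := by
  obtain ⟨d, rfl⟩ := Nat.exists_eq_add_of_le h
  obtain ⟨z, hz, rfl⟩ := mem_dv.1 hx
  exact mem_dv.2 ⟨X.σ i ^ d * z, mul_mem' (σ_pow i d) hz (by rw [add_nsmul]; abel), by ring⟩

theorem dv_idl (i : X.I) (k : ℕ) : Idl X.H (X.Dv i k) := fun hf hg => by
  simpa using dv_mul (dv_zero hf) hg

theorem mul_ne (hx : x ∈ X.H a) (hy : y ∈ X.H b) (h1 : x ≠ 0) (h2 : y ≠ 0) : x * y ≠ 0 :=
  fun h => (X.prm hx hy (by simpa using h)).elim h1 h2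

theorem pow_ne (hx : x ∈ X.H a) (h1 : x ≠ 0) (n : ℕ) : x ^ n ≠ 0 := by
  induction n with
  | zero => simpa using X.nt
  | succ n ih => rw [pow_succ]; exact mul_ne (X.fam.pow hx n) hx ih h1

theorem cancel {z : X.R} (hx : x ∈ X.H a) (h0 : x ≠ 0) (hy : y ∈ X.H b) (hz : z ∈ X.H b)
    (h : x * y = x * z) : y = z := by
  by_contra hn
  exact mul_ne hx (sub_mem hy hz) h0 (sub_ne_zero.2 hn) (by rw [mul_sub, h, sub_self])

theorem ord_iff : X.Ord i a x k ↔ ∃ z ∈ X.H (a - k • X.S i), X.σ i ^ k * z = x ∧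
    z ∉ X.Dv i 1 (a - k • X.S i) := by
  constructor
  · rintro ⟨h1, h2⟩
    obtain ⟨z, hz, rfl⟩ := mem_dv.1 h1
    refine ⟨z, hz, rfl, fun h => h2 ?_⟩
    obtain ⟨w, hw, rfl⟩ := mem_dv.1 h
    exact mem_dv.2 ⟨w, by convert hw using 2; rw [add_nsmul]; abel, by ring⟩
  · rintro ⟨z, hz, rfl, h⟩
    refine ⟨mem_dv.2 ⟨z, hz, rfl⟩, fun h2 => h ?_⟩
    obtain ⟨w, hw, e⟩ := mem_dv.1 h2
    have hw' : w ∈ X.H (a - k • X.S i - 1 • X.S i) := by convert hw using 2; rw [add_nsmul]; abel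
    refine mem_dv.2 ⟨w, hw', cancel (σ_pow i k) (pow_ne (X.σ_mem i) (X.σ_ne i) k)
      (mul_mem' (σ_pow i 1) hw' (by abel)) hz ?_⟩
    rw [← e]; ring

theorem exists_ord (i : X.I) (hx : x ∈ X.H a) (h0 : x ≠ 0) : ∃ k, X.Ord i a x k := by
  classical
  have h : ∃ k, x ∉ X.Dv i (k + 1) a := by
    by_contra hn
    push Not at hn
    refine h0 (X.sep i a x hx fun k => ?_)
    obtain ⟨z, hz, e⟩ := mem_dv.1 (dv_anti (Nat.le_succ k) (hn k))
    exact ⟨z, hz, e.symm⟩
  refine ⟨Nat.find h, ?_, Nat.find_spec h⟩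
  rcases e : Nat.find h with _ | k
  · exact dv_zero hx
  · simpa using Nat.find_min h (m := k) (by omega)

theorem ord_mem (h : X.Ord i a x k) : x ∈ X.H a := dv_le h.1

theorem ord_ne (h : X.Ord i a x k) : x ≠ 0 := fun e => h.2 (e ▸ zero_mem _)

theorem le_ord (h : X.Ord i a x k) (hx : x ∈ X.Dv i l a) : l ≤ k := by
  by_contra hn
  exact h.2 (dv_anti (by omega) hx)

theorem ord_lt (h : X.Ord i a x k) (hx : x ∉ X.Dv i l a) : k < l := by
  by_contra hn
  exact hx (dv_anti (by omega) h.1)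

theorem ord_not (h : X.Ord i a x k) (hl : k < l) : x ∉ X.Dv i l a := fun hx =>
  absurd (le_ord h hx) (by omega)

theorem ord_cast {e : X.J → ℤ} (h : X.Ord i a x k) (h1 : a = e) (h2 : k = l) : X.Ord i e x l :=
  h1 ▸ h2 ▸ h

theorem ord_mul (hP : X.Pr) (hx : X.Ord i a x k) (hy : X.Ord i b y l) :
    X.Ord i (a + b) (x * y) (k + l) := by
  obtain ⟨z, hz, rfl, h1⟩ := ord_iff.1 hx
  obtain ⟨w, hw, rfl, h2⟩ := ord_iff.1 hy
  have e : a - k • X.S i + (b - l • X.S i) = a + b - (k + l) • X.S i := by rw [add_nsmul]; abel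
  exact ord_iff.2 ⟨z * w, mul_mem' hz hw e, by ring,
    fun h => ((hP i).1 hz hw (e ▸ h)).elim h1 h2⟩

theorem ord_one (hP : X.Pr) (i : X.I) : X.Ord i 0 1 0 := ⟨dv_zero X.fam.one, (hP i).2.1⟩

theorem ord_pow (hP : X.Pr) (hx : X.Ord i a x k) (n : ℕ) : X.Ord i (n • a) (x ^ n) (n * k) := by
  induction n with
  | zero => simpa using ord_one hP i
  | succ n ih => rw [pow_succ, succ_nsmul, Nat.succ_mul]; exact ord_mul hP ih hx

theorem ord_prod (hP : X.Pr) {κ : Type*} (s : Finset κ) {d : κ → X.J → ℤ} {u : κ → X.R}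
    {v : κ → ℕ} (h : ∀ j ∈ s, X.Ord i (d j) (u j) (v j)) :
    X.Ord i (∑ j ∈ s, d j) (∏ j ∈ s, u j) (∑ j ∈ s, v j) := by
  classical
  induction s using Finset.induction_on with
  | empty => simpa using ord_one hP i
  | insert j s hj ih =>
    rw [Finset.sum_insert hj, Finset.prod_insert hj, Finset.sum_insert hj]
    exact ord_mul hP (h j (Finset.mem_insert_self _ _))
      (ih fun j' hj' => h j' (Finset.mem_insert_of_mem hj'))

theorem ord_σ (hP : X.Pr) (i c : X.I) : X.Ord i (X.S c) (X.σ c) (if c = i then 1 else 0) := by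
  split_ifs with h
  · subst h
    exact ord_iff.2 ⟨1, by simpa using X.fam.one, by simp, by simpa using (hP c).2.1⟩
  · exact ⟨dv_zero (X.σ_mem c), (hP i).2.2 c h⟩

theorem ord_part (hP : X.Pr) (i : X.I) (s : Finset X.I) (n : X.I → ℕ) :
    X.Ord i (∑ c ∈ s, n c • X.S c) (∏ c ∈ s, X.σ c ^ n c) (if i ∈ s then n i else 0) :=
  ord_cast (ord_prod hP s fun c _ => ord_pow hP (ord_σ hP i c) (n c)) rfl (by simp)

theorem ord_mon (hP : X.Pr) (i : X.I) (n : X.I → ℕ) : X.Ord i (X.D n) (X.mon n) (n i) :=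
  ord_cast (ord_part hP i Finset.univ n) rfl (by simp)

theorem mon_mem (n : X.I → ℕ) : X.mon n ∈ X.H (X.D n) :=
  X.fam.prod _ fun c _ => σ_pow c (n c)

theorem mon_ne (n : X.I → ℕ) : X.mon n ≠ 0 := by
  have : ∀ s : Finset X.I, ∏ c ∈ s, X.σ c ^ n c ≠ 0 := fun s => by
    induction s using Finset.induction_on with
    | empty => simpa using X.nt
    | insert j s hj ih =>
      rw [Finset.prod_insert hj]
      exact mul_ne (σ_pow j _) (X.fam.prod _ fun c _ => σ_pow c (n c))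
        (pow_ne (X.σ_mem j) (X.σ_ne j) _) ih
  exact this _

theorem mon_add (n n' : X.I → ℕ) : X.mon (n + n') = X.mon n * X.mon n' := by
  simp only [LM.mon, Pi.add_apply, pow_add, Finset.prod_mul_distrib]

theorem mon_zero : X.mon 0 = 1 := by simp [LM.mon]

theorem D_add (n n' : X.I → ℕ) : X.D (n + n') = X.D n + X.D n' := by
  simp only [LM.D, Pi.add_apply, add_nsmul, Finset.sum_add_distrib]

theorem D_zero : X.D 0 = 0 := by simp [LM.D]

theorem mon_dv (n : X.I → ℕ) (c : X.I) : X.mon n ∈ X.Dv c (n c) (X.D n) := by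
  refine mem_dv.2 ⟨∏ j ∈ Finset.univ.erase c, X.σ j ^ n j, ?_,
    Finset.mul_prod_erase _ (fun j => X.σ j ^ n j) (Finset.mem_univ c)⟩
  convert X.fam.prod (Finset.univ.erase c) fun j _ => σ_pow j (n j) using 2
  rw [LM.D, ← Finset.add_sum_erase _ (fun j => n j • X.S j) (Finset.mem_univ c)]
  abel

/-- simultaneous division by the equations of the components -/
theorem div_mon (hP : X.Pr) {n : X.I → ℕ} (hx : x ∈ X.H a) (h : ∀ c, x ∈ X.Dv c (n c) a) :
    ∃ y ∈ X.H (a - X.D n), X.mon n * y = x := by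
  have key : ∀ s : Finset X.I, ∃ y ∈ X.H (a - ∑ c ∈ s, n c • X.S c),
      (∏ c ∈ s, X.σ c ^ n c) * y = x := fun s => by
    induction s using Finset.induction_on with
    | empty => exact ⟨x, by simpa using hx, by simp⟩
    | insert j s hj ih =>
      obtain ⟨y, hy, e⟩ := ih
      by_cases h0 : y = 0
      · exact ⟨0, zero_mem _, by rw [← e, h0, mul_zero, mul_zero]⟩
      obtain ⟨k, hk⟩ := exists_ord j hy h0
      have h1 := ord_mul hP (ord_part hP j s n) hk
      rw [e, if_neg hj, zero_add, add_sub_cancel] at h1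
      obtain ⟨z, hz, e2⟩ := mem_dv.1 (dv_anti (le_ord h1 (h j)) hk.1)
      refine ⟨z, ?_, ?_⟩
      · convert hz using 2
        rw [Finset.sum_insert hj]
        abel
      · rw [Finset.prod_insert hj, ← e, ← e2]
        ring
  exact key Finset.univ

/-- a general member avoids finitely many submodules -/
theorem avoid [Algebra ℚ O] {V : Type*} [AddCommGroup V] [Module O V] {κ : Type*} [Finite κ]
    (U : Submodule O V) (W : κ → Submodule O V) (h : ∀ j, ¬U ≤ W j) : ∃ x ∈ U, ∀ j, x ∉ W j := by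
  let _ : Module ℚ V := Module.compHom V (algebraMap ℚ O)
  have : IsScalarTower ℚ O V := ⟨fun q o v => by
    change (q • o) • v = algebraMap ℚ O q • o • v
    rw [Algebra.smul_def, mul_smul]⟩
  obtain ⟨x, hx⟩ := Submodule.exists_forall_notMem_of_forall_ne_top
    (fun j => ((W j).restrictScalars ℚ).comap (U.restrictScalars ℚ).subtype) fun j e =>
      h j fun v hv => by
        have : (⟨v, hv⟩ : U.restrictScalars ℚ) ∈
          ((W j).restrictScalars ℚ).comap (U.restrictScalars ℚ).subtype := e ▸ Submodule.mem_top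
        exact this
  exact ⟨x.1, x.2, hx⟩

end P277Z.FG.S4
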