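import Vale.Agent.P277Z.S4.Bas
import Vale.Agent.P277Z.Gr.Ver

/-!
# Two tools: pieces of a cone, generators of positive degree
-/

noncomputable section

namespace P277Z.FG.S4

open Gr Gor Filter Topology

variable {ι : Type} [Fintype ι]

/-- a vector of natural numbers as an integral vector -/
def cZ (z : ι → ℕ) : ι → ℤ := fun j => z j

/-- the rational rays through the points of `N` -/
def rays (N : Set (ι → ℕ)) : Set (ι → ℝ) :=
  {w | ∃ q : ℕ, 0 < q ∧ ∃ z ∈ N, ∀ j, (z j : ℝ) = q * w j}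

omit [Fintype ι] in
theorem nsmul_mem {N : Set (ι → ℕ)} (hadd : ∀ z ∈ N, ∀ z' ∈ N, z + z' ∈ N) {z : ι → ℕ}
    (hz : z ∈ N) {n : ℕ} (hn : 0 < n) : n • z ∈ N := by
  obtain ⟨n, rfl⟩ := Nat.exists_eq_succ_of_ne_zero hn.ne'
  clear hn
  induction n with
  | zero => simpa using hz
  | succ n ih => rw [Nat.succ_eq_add_one, succ_nsmul]; exact hadd _ ih _ hz

omit [Fintype ι] in
theorem rays_add {N : Set (ι → ℕ)} (hadd : ∀ z ∈ N, ∀ z' ∈ N, z + z' ∈ N) {x y : ι → ℝ}
    (hx : x ∈ closure (rays N)) (hy : y ∈ closure (rays N)) : x + y ∈ closure (rays N) := by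
  refine map_mem_closure₂ (f := fun x y : ι → ℝ => x + y) (by fun_prop) hx hy ?_
  rintro x ⟨q, hq, z, hz, e⟩ y ⟨q', hq', z', hz', e'⟩
  refine ⟨q * q', Nat.mul_pos hq hq', q' • z + q • z',
    hadd _ (nsmul_mem hadd hz hq') _ (nsmul_mem hadd hz' hq), fun j => ?_⟩
  simp only [Pi.add_apply, Pi.smul_apply, smul_eq_mul]
  push_cast
  rw [e, e']
  ring

omit [Fintype ι] in
theorem rays_smul {N : Set (ι → ℕ)} (hadd : ∀ z ∈ N, ∀ z' ∈ N, z + z' ∈ N) {t : ℝ} (ht : 0 < t)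
    {x : ι → ℝ} (hx : x ∈ closure (rays N)) : t • x ∈ closure (rays N) := by
  have h1 : t ∈ closure {r : ℝ | ∃ a b : ℕ, 0 < a ∧ 0 < b ∧ r = a / b} := by
    refine Metric.mem_closure_iff.2 fun ε hε => ?_
    obtain ⟨r, h1, h2⟩ := exists_rat_btwn (lt_add_of_pos_right t hε)
    have h0 : (0 : ℚ) < r := by exact_mod_cast ht.trans h1
    have h3 : 0 < r.num := Rat.num_pos.2 h0
    refine ⟨r, ⟨r.num.toNat, r.den, by omega, r.den_pos, ?_⟩, ?_⟩
    · rw [← Int.cast_natCast, Int.toNat_of_nonneg h3.le]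
      exact_mod_cast (Rat.num_div_den r).symm
    · rw [Real.dist_eq, abs_lt]
      constructor <;> linarith
  refine map_mem_closure₂ (f := fun (t : ℝ) (y : ι → ℝ) => t • y) (by fun_prop) h1 hx ?_
  rintro _ ⟨a, b, ha, hb, rfl⟩ y ⟨q, hq, z, hz, e⟩
  refine ⟨q * b, Nat.mul_pos hq hb, a • z, nsmul_mem hadd hz ha, fun j => ?_⟩
  have : (b : ℝ) ≠ 0 := by positivity
  simp only [Pi.smul_apply, smul_eq_mul]
  push_cast
  rw [e]
  field_simp

/-- `z` is approximated from below, with error `δ`, by rational rays through points of `N` -/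
def Apx (N : Set (ι → ℕ)) (δ : ℝ) (z : ι → ℕ) : Prop :=
  ∀ η : ℝ, 0 < η → ∃ q : ℕ, 0 < q ∧ ∃ y ∈ N, ∀ j,
    |(q : ℝ) * z j - y j| ≤ q * δ ∧ (y j : ℝ) ≤ q * (z j + η)

omit [Fintype ι] in
theorem apx_self {N : Set (ι → ℕ)} {δ : ℝ} (hδ : 0 < δ) {z : ι → ℕ} (hz : z ∈ N) : Apx N δ z :=
  fun η hη => ⟨1, one_pos, z, hz, fun j => by simpa using ⟨hδ.le, hη.le⟩⟩

/-- **A piece** is spanned by finitely many of its points. -/
theorem piece {N : Set (ι → ℕ)} (hadd : ∀ z ∈ N, ∀ z' ∈ N, z + z' ∈ N) {F : Set (ι → ℝ)}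
    (hF : P277Z.S4.Pol F) (hN : ∀ z ∈ N, toR (cZ z) ∈ F) {k : ℕ} (hk : 1 ≤ k) {δ : ℝ}
    (hδ : 0 < δ)
    (crit : ∀ z : ι → ℕ, z ≠ 0 → toR (cZ z) ∈ F → Apx N δ (k • z) → k • z ∈ N) :
    ∃ (n : ℕ) (g : Fin n → ι → ℕ), (∀ l, g l ∈ N) ∧
      ∀ z ∈ N, ∃ t : Fin n → ℝ, (∀ l, 0 ≤ t l) ∧ ∀ j, (z j : ℝ) = ∑ l, t l * g l j := by
  classical
  obtain ⟨W, rfl⟩ := hF
  have hk' : (0 : ℝ) < k := by exact_mod_cast hk
  set T : Finset (ι → ℤ) := W ∪ Finset.univ.image fun j => Pi.single j 1 with hT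
  have hTj : ∀ j, Pi.single j 1 ∈ T := fun j =>
    Finset.mem_union_right _ (Finset.mem_image_of_mem _ (Finset.mem_univ j))
  have hC : closure (rays N) ⊆ hcone T := by
    refine closure_minimal ?_ (isClosed_hcone T)
    rintro w ⟨q, hq, z, hz, e⟩ a ha
    have hq' : (0 : ℝ) < q := by exact_mod_cast hq
    have e1 : toR (cZ z) = (q : ℝ) • w := funext fun j => by simpa [cZ] using e j
    refine nonneg_of_mul_nonneg_right ?_ hq'
    rw [← pr_smul, ← e1]
    rcases Finset.mem_union.1 ha with h | h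
    · exact hN z hz a h
    · obtain ⟨j, -, rfl⟩ := Finset.mem_image.1 h
      rw [P277Z.S4.pr_single]
      simp [cZ]
  have hpos : ∀ w ∈ closure (rays N), ∀ j, 0 ≤ w j := fun w hw j => by
    simpa [P277Z.S4.pr_single] using hC hw _ (hTj j)
  have key : ∀ w ∈ closure (rays N), ∀ z : ι → ℤ, z ≠ 0 → (∀ i, (k : ℤ) ∣ z i) →
      ‖toR z - w‖ < δ / 2 → (∀ a ∈ T, pr a w ≤ pr a (toR z)) → ∃ y ∈ N, cZ y = z := by
    intro w hw z h0 hd hn hu
    have hz : ∀ j, w j ≤ z j := fun j => by simpa [P277Z.S4.pr_single] using hu _ (hTj j)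
    choose z' hz' using hd
    have hz0 : ∀ j, 0 ≤ z' j := fun j => by
      have h1 : (0 : ℝ) ≤ z j := (hpos w hw j).trans (hz j)
      have h2 : 0 ≤ (k : ℤ) * z' j := by rw [← hz' j]; exact_mod_cast h1
      exact nonneg_of_mul_nonneg_right h2 (by exact_mod_cast hk)
    have e0 : cZ (k • fun j => (z' j).toNat) = z := funext fun j => by
      simp [cZ, hz' j, Int.toNat_of_nonneg (hz0 j)]
    have e1 : ∀ j, (((k • fun j => (z' j).toNat) j : ℕ) : ℝ) = z j := fun j =>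
      (Int.cast_natCast _).symm.trans (congrArg _ (congrFun e0 j))
    refine ⟨_, crit _ (fun h => h0 ?_) (fun a ha => ?_) fun η hη => ?_, e0⟩
    · rw [← e0, h, smul_zero]; rfl
    · have h1 := (hC hw a (Finset.mem_union_left _ ha)).trans (hu a (Finset.mem_union_left _ ha))
      have h2 : toR z = (k : ℝ) • toR (cZ fun j => (z' j).toNat) := funext fun j => by
        rw [toR_apply, ← e1 j, Pi.smul_apply, smul_eq_mul, Nat.cast_mul]
        exact congrArg _ (Int.cast_natCast _).symm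
      rw [h2, pr_smul] at h1
      exact nonneg_of_mul_nonneg_right h1 hk'
    · obtain ⟨w', ⟨q, hq, y, hy, e⟩, hw'⟩ :=
        Metric.mem_closure_iff.1 hw _ (lt_min hη (half_pos hδ))
      have hq' : (0 : ℝ) < q := by exact_mod_cast hq
      refine ⟨q, hq, y, hy, fun j => ?_⟩
      have h1 : |w j - w' j| < min η (δ / 2) := by
        rw [dist_eq_norm] at hw'
        exact (norm_le_pi_norm (w - w') j).trans_lt hw'
      have h2 : |(z j : ℝ) - w j| < δ / 2 := (norm_le_pi_norm (toR z - w) j).trans_lt hn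
      have h3 := abs_lt.1 (h1.trans_le (min_le_left _ _))
      have h4 := abs_lt.1 (h1.trans_le (min_le_right _ _))
      have h5 := abs_lt.1 h2
      rw [e1, e j, ← mul_sub, abs_mul, abs_of_pos hq']
      refine ⟨mul_le_mul_of_nonneg_left (abs_le.2 ⟨?_, ?_⟩) hq'.le,
        mul_le_mul_of_nonneg_left ?_ hq'.le⟩ <;> linarith [hz j]
  obtain ⟨s, hs, hcs⟩ := P277Z.S4.cone_crit (C := closure (rays N)) (T := T) (h := 1) (M := 1)
    isClosed_closure (fun _ hx _ hy => rays_add hadd hx hy) (fun _ ht _ hx => rays_smul hadd ht hx)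
    zero_le_one (fun x hx => by
      rw [one_mul]
      have h1 : ∀ j, x j ≤ pr 1 x := fun j => by
        simpa [pr] using Finset.single_le_sum (fun j _ => hpos x hx j) (Finset.mem_univ j)
      have h0 : 0 ≤ pr 1 x := by
        simpa [pr] using Finset.sum_nonneg fun j (_ : j ∈ Finset.univ) => hpos x hx j
      exact (pi_norm_le_iff_of_nonneg h0).2 fun j => by
        rw [Real.norm_of_nonneg (hpos x hx j)]; exact h1 j) hC (half_pos hδ) hk
    (fun w hw z h0 hd hn hu => by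
      obtain ⟨y, hy, rfl⟩ := key w hw z h0 hd hn hu
      exact subset_closure ⟨1, one_pos, y, hy, fun j => by simp [cZ]⟩)
  have hs' : ∀ v : (s.erase 0), ∃ y ∈ N, cZ y = v.1 := fun v =>
    have h := Finset.mem_erase.1 v.2
    key _ (hs _ h.2).2 v.1 h.1 (hs _ h.2).1 (by simpa using hδ) fun _ _ => le_rfl
  choose g hg eg using hs'
  let e := (Fintype.equivFin (s.erase 0)).symm
  refine ⟨_, fun l => g (e l), fun l => hg _, fun z hz => ?_⟩
  have h1 : toR (cZ z) ∈ cone (s.erase 0) := by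
    refine cone_subset_cone (fun v hv => ?_)
      (hcs (subset_closure ⟨1, one_pos, z, hz, fun j => by simp [cZ]⟩))
    by_cases h : v = 0
    · rw [h, toR_zero]; exact zero_mem_cone _
    · exact toR_mem_cone (Finset.mem_erase.2 ⟨h, hv⟩)
  obtain ⟨t, h2, h3⟩ := P277Z.S4.exists_of_mem_cone h1
  refine ⟨fun l => t (e l), fun l => h2 _, fun j => ?_⟩
  rw [e.sum_comp fun v => t v * (g v j : ℝ)]
  simpa [cZ, ← eg] using h3 j

/-- the cone spanned by a part of a finite family -/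
theorem pol_part {J : Type} [Fintype J] (d : J → ι → ℤ) (p : J → Prop) :
    P277Z.S4.Pol {x : ι → ℝ | ∃ t : J → ℝ, (∀ l, 0 ≤ t l) ∧ (∀ l, p l → t l = 0) ∧
      ∀ j, x j = ∑ l, t l * d l j} := by
  classical
  convert P277Z.S4.pol_cone ((Finset.univ.filter fun l => ¬p l).image d) using 1
  refine Set.Subset.antisymm ?_ (cone_subset ⟨0, by simp⟩ ?_ ?_ ?_)
  · rintro x ⟨t, h1, h2, h3⟩
    have : x = ∑ l, t l • toR (d l) := funext fun j => by simp [h3 j, Finset.sum_apply]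
    rw [this]
    refine sum_mem_cone _ _ fun l _ => ?_
    by_cases h : p l
    · rw [h2 l h, zero_smul]; exact zero_mem_cone _
    · exact smul_mem_cone (toR_mem_cone (Finset.mem_image_of_mem _ (by simpa using h))) (h1 l)
  · rintro x ⟨t, h1, h2, h3⟩ y ⟨t', k1, k2, k3⟩
    exact ⟨t + t', fun l => add_nonneg (h1 l) (k1 l), fun l h => by simp [h2 l h, k2 l h],
      fun j => by simp [h3 j, k3 j, add_mul, Finset.sum_add_distrib]⟩
  · rintro x ⟨t, h1, h2, h3⟩ c hc
    exact ⟨c • t, fun l => mul_nonneg hc (h1 l), fun l h => by simp [h2 l h],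
      fun j => by simp [h3 j, Finset.mul_sum, mul_assoc]⟩
  · intro v hv
    obtain ⟨l, hl, rfl⟩ := Finset.mem_image.1 hv
    refine ⟨Pi.single l 1, fun l' => ?_, fun l' h => ?_, fun j => ?_⟩
    · rw [Pi.single_apply]; split_ifs <;> norm_num
    · exact Pi.single_eq_of_ne (by rintro rfl; exact (Finset.mem_filter.1 hl).2 h) _
    · rw [Finset.sum_eq_single l] <;> simp +contextual

/-- generators of positive degree -/
theorem fg_pos {O K M : Type*} [CommRing O] [CommRing K] [Algebra O K] [AddCommMonoid M]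
    {H : M → Submodule O K} (hH : Fam H) (h : FG H Set.univ) (h0 : (H 0).FG) :
    ∃ T : Set (M × K), T.Finite ∧ (∀ t ∈ T, t.1 ≠ 0 ∧ t.2 ∈ H t.1) ∧
      ∀ a, a ≠ 0 → H a ≤ gen O T a := by
  obtain ⟨T, h1, h2, h3⟩ := fg_iff.1 h
  obtain ⟨E, hE⟩ := h0
  set T' : Set (M × K) := (fun p : (M × K) × K => (p.1.1, p.2 * p.1.2)) ''
    ({t ∈ T | t.1 ≠ 0} ×ˢ (E : Set K)) with hT'
  have hE' : ∀ e ∈ E, e ∈ H 0 := fun e he => hE ▸ Submodule.subset_span he
  have k1 : ∀ t ∈ T, t.1 ≠ 0 → ∀ f ∈ H 0, f * t.2 ∈ gen O T' t.1 := fun t ht h0 f hf =>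
    mul_mem_of_span (hE ▸ hf : f ∈ Submodule.span O (E : Set K)) fun e he =>
      mem_gen (Mono.of_mem ⟨(t, e), ⟨⟨ht, h0⟩, he⟩, rfl⟩)
  have key : ∀ a g, Mono T a g → a ≠ 0 → ∀ f ∈ H 0, f * g ∈ gen O T' a := by
    intro a g hg
    induction hg with
    | one => exact fun h => absurd rfl h
    | @mul d b u g ht hm ih =>
      intro ha f hf
      by_cases hd : d = 0
      · subst hd
        rw [zero_add] at ha ⊢
        rw [← mul_assoc]
        exact ih ha _ (by simpa using hH.mul hf (h2 _ ht))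
      by_cases hb : b = 0
      · subst hb
        rw [add_zero, mul_comm u, ← mul_assoc]
        exact k1 _ ht hd _ (by simpa using hH.mul hf (hm.mem_fam hH h2))
      · rw [← mul_assoc]
        exact (fam_gen T').mul (k1 _ ht hd f hf) (by simpa using ih hb 1 hH.one)
  refine ⟨T', ((h1.subset fun _ h => h.1).prod E.finite_toSet).image _, ?_, fun a ha => ?_⟩
  · rintro _ ⟨⟨t, e⟩, ⟨⟨ht, h0⟩, he⟩, rfl⟩
    exact ⟨h0, by simpa using hH.mul (hE' e he) (h2 t ht)⟩
  · exact (h3 a trivial).trans (gen_le_iff.2 fun g hg => by simpa using key a g hg ha 1 hH.one)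

end P277Z.FG.S4
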