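import Vale.Agent.P277Z.FG.S4a
import Vale.Agent.P277Z.FG.Ord
import Vale.Agent.P277Z.FG.Bas
import Vale.Agent.P277Z.Gr.PL

/-!
# Restricted rings: the degrees on `X` and on the component
-/

noncomputable section

namespace P277Z.FG.S4

open Gr Gor Filter Topology

/-- combinations with natural coefficients -/
def cmb {τ M : Type} [Fintype τ] [AddCommMonoid M] (a : τ → M) : (τ → ℕ) →+ M where
  toFun n := ∑ t, n t • a t
  map_zero' := by simp
  map_add' n n' := by simp [add_nsmul, Finset.sum_add_distrib]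

theorem cmb_apply {τ M : Type} [Fintype τ] [AddCommMonoid M] (a : τ → M) (n : τ → ℕ) :
    cmb a n = ∑ t, n t • a t := rfl

theorem map_cmb {τ M M' : Type} [Fintype τ] [AddCommMonoid M] [AddCommMonoid M'] (f : M →+ M')
    (a : τ → M) (n : τ → ℕ) : f (cmb a n) = cmb (fun t => f (a t)) n := by
  simp only [cmb_apply, map_sum, map_nsmul]

/-- the first half -/
def nn {τ κ : Type} : (τ ⊕ κ → ℕ) →+ (τ → ℕ) := ⟨⟨fun z t => z (.inl t), rfl⟩, fun _ _ => rfl⟩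

/-- the second half -/
def ps {τ κ : Type} : (τ ⊕ κ → ℕ) →+ (κ → ℕ) := ⟨⟨fun z c => z (.inr c), rfl⟩, fun _ _ => rfl⟩

/-- `cZ` is additive -/
def cH {ι : Type} : (ι → ℕ) →+ (ι → ℤ) :=
  ⟨⟨cZ, funext fun _ => rfl⟩, fun _ _ => funext fun _ => Nat.cast_add _ _⟩

variable {O : Type} [CommRing O]

theorem amp_sum {X : LM O} {τ : Type} [Fintype τ] {c : τ → ℝ} {w : τ → X.J → ℝ}
    (hc : ∀ t, 0 ≤ c t) (h0 : ∃ t, c t ≠ 0) (hw : ∀ t, w t ∈ X.Amp) : ∑ t, c t • w t ∈ X.Amp := by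
  classical
  obtain ⟨t, ht⟩ := h0
  rw [← Finset.add_sum_erase _ _ (Finset.mem_univ t), add_comm]
  refine Finset.sum_induction _ X.Nef (fun a b ha hb A hA => ?_) (fun A hA => by simpa using hA)
    (fun s _ => (LM.nef_of_amp (hw s)).smul (hc s)) _
    (X.amp_smul _ ((hc t).lt_of_ne' ht) _ (hw t))
  rw [add_assoc]
  exact ha _ (hb A hA)

/-- finitely many adjoint degrees whose boundaries have their big part on `P` -/
structure Dt (X : LM O) (i : X.I) where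
  τ : Type
  [fτ : Fintype τ]
  P : Finset X.I
  ind : X.Ind i P
  a : τ → X.J → ℤ
  m : τ → ℕ
  β : τ → X.I → ℕ
  adj : ∀ t, X.AdjS i P (m t) (β t) (a t)

attribute [instance] Dt.fτ

namespace Dt

variable {X : LM O} {i : X.I} (D : Dt X i)

theorem amp_eq (n : D.τ → ℕ) : X.amp i (cmb D.m n) (cmb D.β n) (cmb D.a n) =
    ∑ t, (n t : ℝ) • X.amp i (D.m t) (D.β t) (D.a t) := by
  simp only [LM.amp, cmb_apply, ← cst_nsmul, ← map_sum, LM.D_sum, LM.D_nsmul, smul_sub,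
    Finset.sum_sub_distrib, Finset.sum_smul, smul_assoc]

theorem m_pos {n : D.τ → ℕ} (hn : n ≠ 0) : 0 < cmb D.m n := by
  obtain ⟨t, ht⟩ := Function.ne_iff.1 hn
  exact Finset.sum_pos' (fun _ _ => Nat.zero_le _)
    ⟨t, Finset.mem_univ _, Nat.mul_pos (Nat.pos_of_ne_zero ht) (D.adj t).1⟩

theorem adjS {n : D.τ → ℕ} (hn : n ≠ 0) :
    X.AdjS i D.P (cmb D.m n) (cmb D.β n) (cmb D.a n) := by
  refine ⟨D.m_pos hn, ⟨?_, fun j => ?_⟩, ?_⟩
  · simp [cmb_apply, Finset.sum_apply, (D.adj _).2.1.1]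
  · have := Finset.sum_le_sum fun t (_ : t ∈ Finset.univ) =>
      Nat.mul_le_mul_left (n t) ((D.adj t).2.1.2 j)
    refine le_of_eq_of_le ?_ this
    simp only [cmb_apply, Finset.sum_apply, Pi.smul_apply, smul_eq_mul, mul_add,
      Finset.sum_add_distrib, Finset.mul_sum]
    rw [Finset.sum_comm]
    split_ifs <;> simp
  · rw [D.amp_eq]
    obtain ⟨t, ht⟩ := Function.ne_iff.1 hn
    exact amp_sum (fun _ => Nat.cast_nonneg _) ⟨t, Nat.cast_ne_zero.2 ht⟩ fun t => (D.adj t).2.2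

theorem β_le {n : D.τ → ℕ} (hn : n ≠ 0) (j : X.I) : cmb D.β n j ≤ cmb D.m n := by
  have := (D.adjS hn).2.1.2 j
  split_ifs at this with h
  · omega
  · have := Finset.single_le_sum (f := cmb D.β n) (fun _ _ => Nat.zero_le _)
      (Finset.mem_compl.2 h)
    omega

/-- the ample parts are uniformly ample -/
theorem unif : ∃ δ : ℝ, 0 < δ ∧ ∀ n : D.τ → ℕ, n ≠ 0 → ∀ e : D.τ → ℝ, (∀ t, |e t| ≤ δ) →
    ((cmb D.m n : ℕ) : ℝ)⁻¹ • X.amp i (cmb D.m n) (cmb D.β n) (cmb D.a n) +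
      ∑ t, e t • cst (D.a t) ∈ X.Amp := by
  have h1 : ∀ᶠ e in 𝓝 (0 : D.τ → ℝ), ∀ s, ((D.m s : ℕ) : ℝ)⁻¹ • X.amp i (D.m s) (D.β s) (D.a s) +
      ∑ t, e t • cst (D.a t) ∈ X.Amp := eventually_all.2 fun s => by
    have hc : Continuous fun e : D.τ → ℝ => ((D.m s : ℕ) : ℝ)⁻¹ •
      X.amp i (D.m s) (D.β s) (D.a s) + ∑ t, e t • cst (D.a t) := by fun_prop
    refine hc.continuousAt.eventually_mem (X.amp_open.mem_nhds ?_)
    simpa using X.amp_smul _ (inv_pos.2 (Nat.cast_pos.2 (D.adj s).1)) _ (D.adj s).2.2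
  obtain ⟨r, hr, h2⟩ := Metric.eventually_nhds_iff.1 h1
  refine ⟨r / 2, half_pos hr, fun n hn e he => ?_⟩
  have h3 := h2 (y := e) (by
    rw [dist_zero_right]
    exact ((pi_norm_le_iff_of_nonneg (half_pos hr).le).2 he).trans_lt (half_lt_self hr))
  have hm : (0 : ℝ) < (cmb D.m n : ℕ) := Nat.cast_pos.2 (D.m_pos hn)
  have hs : ∀ s, (0 : ℝ) < D.m s := fun s => Nat.cast_pos.2 (D.adj s).1
  obtain ⟨t, ht⟩ := Function.ne_iff.1 hn
  have ht' : (0 : ℝ) < n t := Nat.cast_pos.2 (Nat.pos_of_ne_zero ht)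
  have h4 := amp_sum (c := fun s => ((cmb D.m n : ℕ) : ℝ)⁻¹ * (n s * D.m s))
    (fun s => by have := hs s; positivity) ⟨t, by have := hs t; positivity⟩ h3
  convert h4 using 1
  simp only [smul_add, Finset.sum_add_distrib, ← Finset.sum_smul, ← Finset.mul_sum]
  have e1 : ∑ s, (n s : ℝ) * D.m s = (cmb D.m n : ℕ) := by simp [cmb_apply]
  rw [e1, inv_mul_cancel₀ hm.ne', one_smul, D.amp_eq, Finset.smul_sum]
  congr 1
  refine Finset.sum_congr rfl fun s _ => ?_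
  rw [smul_smul, smul_smul, mul_assoc, mul_assoc, mul_inv_cancel₀ (hs s).ne', mul_one]

variable {Y : LM O} (Z : Res X i Y)

/-- the degree on the component -/
def rf : (D.τ → ℕ) →+ (Y.J → ℤ) := Z.r.mulVecLin.toAddMonoidHom.comp (cmb D.a)

theorem rf_apply (n : D.τ → ℕ) : D.rf Z n = Z.r.mulVec (cmb D.a n) := rfl

/-- the degree on the component after removing a part of the boundary -/
def dZ : (D.τ ⊕ Y.I → ℤ) →+ (Y.J → ℤ) where
  toFun z := ∑ t, z (.inl t) • Z.r.mulVec (D.a t) - ∑ c, z (.inr c) • Y.S c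
  map_zero' := by simp
  map_add' z z' := by
    simp only [Pi.add_apply, add_smul, Finset.sum_add_distrib]
    abel

theorem dZ_cZ (z : D.τ ⊕ Y.I → ℕ) : D.dZ Z (cZ z) = D.rf Z (nn z) - Y.D (ps z) := by
  rw [rf, AddMonoidHom.comp_apply, map_cmb]
  change ∑ t, ((z (.inl t) : ℕ) : ℤ) • Z.r.mulVec (D.a t) -
    ∑ c, ((z (.inr c) : ℕ) : ℤ) • Y.S c = _
  simp only [natCast_zsmul]
  rfl

/-- the admissible degrees -/
def MN : AddSubmonoid (D.τ ⊕ Y.I → ℕ) where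
  carrier := {z | ∀ c, ps z c ≤ cmb D.β (nn z) (Z.p c)}
  zero_mem' := fun c => Nat.zero_le _
  add_mem' := fun {z z'} h h' c => by
    rw [map_add, map_add, map_add]
    exact add_le_add (h c) (h' c)

theorem MN_fg : (D.MN Z).FG := by
  let F : ((D.τ ⊕ Y.I) ⊕ Y.I → ℕ) →+ (Y.I → ℕ) := ps.comp nn + ps
  let G : ((D.τ ⊕ Y.I) ⊕ Y.I → ℕ) →+ (Y.I → ℕ) :=
    ⟨⟨fun w c => cmb D.β (nn (nn w)) (Z.p c), funext fun c => by simp⟩,
      fun w w' => funext fun c => by simp⟩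
  convert (AddSubmonoid.fg_eqLocusM F G).map nn using 1
  refine AddSubmonoid.ext fun z => ⟨fun h => ⟨Sum.elim z fun c => cmb D.β (nn z) (Z.p c) - ps z c,
    funext fun c => Nat.add_sub_cancel' (h c), rfl⟩, ?_⟩
  rintro ⟨w, hw, rfl⟩ c
  exact Nat.le.intro (congrFun hw c)

theorem nn_ne {z : D.τ ⊕ Y.I → ℕ} (hz : z ∈ D.MN Z) (h0 : z ≠ 0) : nn z ≠ 0 := fun h => h0 <| by
  funext j
  cases j with
  | inl t => exact congrFun h t
  | inr c => exact (by simpa [h] using hz c : ps z c = 0)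

theorem adjY {z : D.τ ⊕ Y.I → ℕ} (hz : z ∈ D.MN Z) (h0 : nn z ≠ 0) :
    cst (D.dZ Z (cZ z)) ∈ Y.Adj := by
  obtain ⟨h1, h2, h3⟩ := D.adjS h0
  set m := cmb D.m (nn z)
  set β := cmb D.β (nn z) with hβ
  have hm : (0 : ℝ) < m := Nat.cast_pos.2 h1
  obtain ⟨u, hu⟩ := Z.K_eq
  have e1 : Z.r.mulVec (X.D β) - Y.D (fun c => β (Z.p c)) = ∑ j, β j • (Z.r.mulVec (X.S j) -
      Y.D fun c => if Z.p c = j then 1 else 0) := by
    simp only [smul_sub, Finset.sum_sub_distrib, ← LM.D_nsmul, ← LM.D_sum]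
    congr 1
    · exact map_cmb Z.r.mulVecLin.toAddMonoidHom X.S β
    · congr 1
      funext c
      simp [Finset.sum_apply]
  have hL : Y.Lin (cst (Z.r.mulVec (X.D β) - Y.D fun c => β (Z.p c))) := by
    rw [e1, map_sum]
    refine LM.Lin.sum _ fun j _ => ?_
    by_cases hj : j = i
    · rw [hj, h2.1, zero_smul, map_zero]; exact LM.Lin.zero
    · obtain ⟨v, hv, -⟩ := Z.pull j hj
      rw [cst_nsmul]
      exact hv.lin.smul _
  refine ⟨m, hm, _, Y.amp_smul _ (inv_pos.2 hm) _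
    (hL.add_mem ((hu.lin.smul m).add_mem (Z.amp _ h3))),
    (m : ℝ)⁻¹ • fun c => ((β (Z.p c) - ps z c : ℕ) : ℝ), fun c => ⟨?_, ?_⟩, ?_⟩
  · simp only [Pi.smul_apply, smul_eq_mul]; positivity
  · simp only [Pi.smul_apply, smul_eq_mul]
    rw [inv_mul_le_iff₀ hm, mul_one]
    exact_mod_cast (Nat.sub_le _ _).trans (D.β_le h0 _)
  · have e2 : (fun c => β (Z.p c)) = (fun c => β (Z.p c) - ps z c) + ps z :=
      funext fun c => (Nat.sub_add_cancel (hz c)).symm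
    rw [LM.DR_smul, ← LM.cst_D, smul_add, smul_add, smul_smul, smul_smul, mul_inv_cancel₀ hm.ne',
      one_smul, one_smul, dZ_cZ, rf_apply, LM.amp, rl_cst, e2, LM.D_add, Matrix.mulVec_sub,
      Matrix.mulVec_sub, Matrix.mulVec_smul]
    simp only [map_sub, map_add, cst_nsmul]
    module

/-- the sections on the component -/
abbrev G (z : D.τ ⊕ Y.I → ℤ) : Submodule O Y.R := Y.H (D.dZ Z z)

theorem fgN (hA : Y.ThA) : FG (fun z => D.G Z (cH z)) (D.MN Z) := by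
  classical
  obtain ⟨s, hs⟩ := D.MN_fg Z
  have hm : ∀ z ∈ s, z ∈ D.MN Z := fun z hz => hs ▸ AddSubmonoid.subset_closure hz
  refine FGm.comap (N := fun _ => ⊥) Y.fam (hA ((s.erase 0).image fun z => D.dZ Z (cZ z)) ?_)
    ((D.dZ Z).comp cH) _ (D.MN_fg Z) fun z hz => ?_
  · intro t ht
    obtain ⟨z, hz, rfl⟩ := Finset.mem_image.1 ht
    have h := Finset.mem_erase.1 hz
    exact D.adjY Z (hm z h.2) (D.nn_ne Z (hm z h.2) h.1)
  · rw [← hs] at hz
    refine AddSubmonoid.mem_comap.1 (AddSubmonoid.closure_le.2 (fun w hw => ?_) hz)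
    by_cases h : w = 0
    · rw [h]; exact zero_mem _
    · exact AddSubmonoid.subset_closure
        (Finset.mem_image_of_mem _ (Finset.mem_erase.2 ⟨h, hw⟩))

/-- zero, or the sections vanishing along a component -/
def Pc (c : Option Y.I) (z : D.τ ⊕ Y.I → ℤ) : Submodule O Y.R :=
  c.elim ⊥ fun c => Y.Dv c 1 (D.dZ Z z)

/-- the cones of the degrees without a given fixed component -/
theorem base (hP : Y.Pr) (hA : Y.ThA) : ∃ (k : ℕ) (F : Option Y.I → Set (D.τ ⊕ Y.I → ℝ)),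
    1 ≤ k ∧ (∀ c, P277Z.S4.Pol (F c)) ∧
    (∀ c z, toR (cZ z) ∈ F c → ¬D.G Z (cZ (k • z)) ≤ D.Pc Z c (cZ (k • z))) ∧
    ∀ c, ∀ z ∈ D.MN Z, ¬D.G Z (cZ z) ≤ D.Pc Z c (cZ z) → toR (cZ z) ∈ F c := by
  obtain ⟨q, d, u, hG⟩ := FG.gens (H := D.G Z)
    (FGm.map (N := fun _ => ⊥) cH (D.fgN Z hA))
  obtain ⟨k, hk, h⟩ := hG.exists_base (Y.fam.comap (D.dZ Z))
  have h' := fun c : Option Y.I => h (D.Pc Z c)
    (by
      cases c with
      | none =>
        intro a b f g _ hg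
        rw [show g = 0 from hg, mul_zero]
        exact zero_mem _
      | some c => exact Idl.comap (H := Y.H) (N := Y.Dv c 1) (dv_idl c 1) (D.dZ Z))
    (by
      cases c with
      | none => exact Prm.comap (H := Y.H) (N := fun _ => ⊥) Y.prm (D.dZ Z)
      | some c => exact Prm.comap (H := Y.H) (N := Y.Dv c 1) (hP c).1 (D.dZ Z))
    (by
      cases c with
      | none => exact Y.nt
      | some c => simpa [Pc] using (hP c).2.1)
  refine ⟨k, _, hk, fun c => pol_part d fun l => u l ∈ D.Pc Z c (d l), fun c z hz => ?_,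
    fun c z hz h1 => (h' c (cZ z)).2 1 le_rfl (by simpa using ⟨z, hz, rfl⟩) (by simpa using h1)⟩
  have := (h' c (cZ z)).1 hz
  rwa [show k • cZ z = cZ (k • z) from (map_nsmul cH k z).symm] at this

end Dt

end P277Z.FG.S4
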