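import Vale.Agent.P277Z.FG.S4b

/-!
# Restricted rings: the pieces on which sections lift
-/

noncomputable section

namespace P277Z.FG.S4

open Gr Gor Filter Topology

theorem cmb_mem {ι κ : Type} [Fintype κ] {N : Set (ι → ℕ)}
    (hadd : ∀ z ∈ N, ∀ z' ∈ N, z + z' ∈ N) {g : κ → ι → ℕ} (hg : ∀ l, g l ∈ N) {ν : κ → ℕ}
    (hν : ν ≠ 0) : cmb g ν ∈ N := by
  classical
  obtain ⟨l, hl⟩ := Function.ne_iff.1 hν
  rw [cmb_apply, ← Finset.sum_filter_of_ne (p := fun l => ν l ≠ 0)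
    fun l _ h e => h (by rw [e, zero_smul])]
  exact Finset.sum_induction_nonempty _ (· ∈ N) (fun a b ha hb => hadd a ha b hb)
    ⟨l, Finset.mem_filter.2 ⟨Finset.mem_univ _, hl⟩⟩ fun l hl =>
      nsmul_mem hadd (hg l) (Nat.pos_of_ne_zero (Finset.mem_filter.1 hl).2)

theorem pol_pr {ι : Type} [Fintype ι] (a : ι → ℤ) : P277Z.S4.Pol {x : ι → ℝ | 0 ≤ pr a x} :=
  ⟨{a}, Set.ext fun x => by simp [hcone]⟩

theorem cst_cmb {τ J : Type} [Fintype τ] (a : τ → J → ℤ) (n : τ → ℕ) :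
    cst (cmb a n) = ∑ t, (n t : ℝ) • cst (a t) := by
  simp only [cmb_apply, map_sum, cst_nsmul]

variable {O : Type} [CommRing O]

namespace Dt

variable {X : LM O} {i : X.I} (D : Dt X i) {Y : LM O} (Z : Res X i Y)

theorem res_mem {n : D.τ → ℕ} {x : X.R} (hx : x ∈ X.H (cmb D.a n)) : Z.ρ x ∈ Y.H (D.rf Z n) :=
  Z.mem _ _ hx

/-- a multiple has a section whose restriction has small order outside `P'` -/
def Has (P' : Finset Y.I) (z : D.τ ⊕ Y.I → ℕ) : Prop :=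
  ∃ q : ℕ, 0 < q ∧ ∃ x ∈ X.H (cmb D.a (q • nn z)), Z.ρ x ≠ 0 ∧
    ∀ c ∉ P', Z.ρ x ∉ Y.Dv c (q * ps z c + 1) (D.rf Z (q • nn z))

/-- the sections of degree `z` on the component lift -/
def Lf (z : D.τ ⊕ Y.I → ℕ) : Prop :=
  ∀ s ∈ D.G Z (cZ z), ∃ x ∈ X.H (cmb D.a (nn z)), Z.ρ x = Y.mon (ps z) * s

theorem has_add (hP : Y.Pr) {P' : Finset Y.I} {z z' : D.τ ⊕ Y.I → ℕ} (h : D.Has Z P' z)
    (h' : D.Has Z P' z') : D.Has Z P' (z + z') := by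
  obtain ⟨q, hq, x, hx, h0, h1⟩ := h
  obtain ⟨q', hq', x', hx', h0', h1'⟩ := h'
  have e : q' • q • nn z + q • q' • nn z' = (q * q') • nn (z + z') := by
    rw [map_add, smul_add, smul_smul, smul_smul, mul_comm q' q]
  have m1 := D.res_mem Z hx
  have m2 := D.res_mem Z hx'
  refine ⟨q * q', Nat.mul_pos hq hq', x ^ q' * x' ^ q,
    mul_mem' (X.fam.pow hx q') (X.fam.pow hx' q)
      (by rw [← e, map_add, map_nsmul _ q' (q • _), map_nsmul _ q (q' • _)]),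
    ?_, fun c hc => ?_⟩
  · rw [map_mul, map_pow, map_pow]
    exact mul_ne (Y.fam.pow m1 _) (Y.fam.pow m2 _) (pow_ne m1 h0 _) (pow_ne m2 h0' _)
  · obtain ⟨v, hv⟩ := exists_ord c m1 h0
    obtain ⟨v', hv'⟩ := exists_ord c m2 h0'
    have k1 := Nat.lt_succ_iff.1 (ord_lt hv (h1 c hc))
    have k2 := Nat.lt_succ_iff.1 (ord_lt hv' (h1' c hc))
    rw [map_mul, map_pow, map_pow, ← e, map_add (D.rf Z), map_nsmul _ q' (q • _),
      map_nsmul _ q (q' • _)]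
    refine ord_not (ord_mul hP (ord_pow hP hv q') (ord_pow hP hv' q)) (Nat.lt_succ_iff.2 ?_)
    rw [map_add, Pi.add_apply]
    nlinarith [Nat.mul_le_mul_left q' k1, Nat.mul_le_mul_left q k2]

theorem mon_mul_mem {z : D.τ ⊕ Y.I → ℕ} {s : Y.R} (hs : s ∈ D.G Z (cZ z)) :
    Y.mon (ps z) * s ∈ Y.H (D.rf Z (nn z)) :=
  mul_mem' (mon_mem _) hs (by rw [dZ_cZ]; abel)

theorem lift (hE : Z.Ext) : ∃ δ : ℝ, 0 < δ ∧ ∀ (P' : Finset Y.I) (N : Set (D.τ ⊕ Y.I → ℕ)),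
    (∀ y ∈ N, D.Has Z P' y) → ∀ z, nn z ≠ 0 → (∀ c ∈ P', cmb D.β (nn z) (Z.p c) ≤ ps z c) →
      Apx N δ z → D.Lf Z z := by
  obtain ⟨δ, hδ, hu⟩ := D.unif
  refine ⟨δ, hδ, fun P' N hN z h0 hβ ha s hs => ?_⟩
  refine hE D.P _ _ _ D.ind (D.adjS h0) _ (D.mon_mul_mem Z hs) (ps z) (fun c => ?_) fun η hη => ?_
  · have := dv_mul (mon_dv (ps z) c) (dv_zero (i := c) hs)
    rwa [dZ_cZ, add_sub_cancel] at this
  obtain ⟨q, hq, y, hy, h1⟩ := ha η hη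
  obtain ⟨q', hq', x, hx, h2, h3⟩ := hN y hy
  choose v hv using fun c => exists_ord c (D.res_mem Z hx) h2
  have k1 : (0 : ℝ) < q := Nat.cast_pos.2 hq
  have k2 : (0 : ℝ) < q' := Nat.cast_pos.2 hq'
  refine ⟨q' * q, _, x, v, Nat.mul_pos hq' hq, hx, hv, h2, ?_, fun c => ?_⟩
  · have := X.amp_smul _ (mul_pos k2 k1) _ (hu _ h0
      (fun t => (z (.inl t) : ℝ) - y (.inl t) / q) fun t => by
        have := (h1 (.inl t)).1
        rw [show (q : ℝ) * z (.inl t) - y (.inl t) = q * (z (.inl t) - y (.inl t) / q) by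
          field_simp, abs_mul, abs_of_pos k1] at this
        exact le_of_mul_le_mul_left this k1)
    convert this using 1
    rw [cst_cmb, cst_cmb, Nat.cast_mul, smul_add, smul_add, add_comm, add_sub_assoc]
    congr 1
    simp only [Finset.smul_sum, ← Finset.sum_sub_distrib, smul_smul, ← sub_smul]
    refine Finset.sum_congr rfl fun t _ => ?_
    congr 1
    change (q' : ℝ) * q * z (.inl t) - ((q' * y (.inl t) : ℕ) : ℝ) = _
    push_cast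
    field_simp
  · have k3 : (0 : ℝ) ≤ (q' * q : ℕ) * η := by positivity
    by_cases hc : c ∈ P'
    · have := (min_le_left _ (v c)).trans (Nat.mul_le_mul_left (q' * q) (hβ c hc))
      rw [mul_add]
      exact le_add_of_le_of_nonneg (by exact_mod_cast this) k3
    · have k4 : ((v c : ℕ) : ℝ) ≤ q' * y (.inr c) := by
        exact_mod_cast Nat.lt_succ_iff.1 (ord_lt (hv c) (h3 c hc))
      have k5 := mul_le_mul_of_nonneg_left (h1 (.inr c)).2 k2.le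
      refine (Nat.cast_le.2 (min_le_right _ _)).trans (k4.trans (k5.trans_eq ?_))
      rw [Nat.cast_mul, mul_assoc]
      rfl

/-- the functional `β (p c) - ψ c` -/
def w (c : Y.I) : D.τ ⊕ Y.I → ℤ :=
  Sum.elim (fun t => D.β t (Z.p c)) fun c' => if c' = c then -1 else 0

theorem pr_w (c : Y.I) (z : D.τ ⊕ Y.I → ℕ) :
    pr (D.w Z c) (toR (cZ z)) = (cmb D.β (nn z) (Z.p c) : ℝ) - ps z c := by
  simp [pr, w, cZ, cmb_apply, Finset.sum_apply, nn, ps, mul_comm, sub_eq_add_neg]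

/-- the ambient cone of a piece -/
def Amb (F : Option Y.I → Set (D.τ ⊕ Y.I → ℝ)) (P' : Finset Y.I) : Set (D.τ ⊕ Y.I → ℝ) :=
  {x | ((∀ c, 0 ≤ pr (D.w Z c) x) ∧ ∀ c, c ∈ P' → 0 ≤ pr (0 - D.w Z c) x) ∧
    x ∈ F none ∧ ∀ c, c ∉ P' → x ∈ F (some c)}

theorem pol_amb {F : Option Y.I → Set (D.τ ⊕ Y.I → ℝ)} (hF : ∀ c, P277Z.S4.Pol (F c))
    (P' : Finset Y.I) : P277Z.S4.Pol (D.Amb Z F P') :=
  ((P277Z.S4.pol_forall fun c => pol_pr (D.w Z c)).and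
    (P277Z.S4.pol_forall fun c => (pol_pr (0 - D.w Z c)).imp (c ∈ P'))).and
    ((hF none).and (P277Z.S4.pol_forall fun c => (hF (some c)).imp (c ∉ P')))

theorem mem_amb {F : Option Y.I → Set (D.τ ⊕ Y.I → ℝ)} {P' : Finset Y.I} {z : D.τ ⊕ Y.I → ℕ} :
    toR (cZ z) ∈ D.Amb Z F P' ↔ (z ∈ D.MN Z ∧ ∀ c ∈ P', cmb D.β (nn z) (Z.p c) ≤ ps z c) ∧
      toR (cZ z) ∈ F none ∧ ∀ c, c ∉ P' → toR (cZ z) ∈ F (some c) := by
  have e : ∀ c, 0 ≤ pr (0 - D.w Z c) (toR (cZ z)) ↔ cmb D.β (nn z) (Z.p c) ≤ ps z c := fun c => by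
    rw [P277Z.S4.pr_sub_left, P277Z.S4.pr_zero_left, pr_w, zero_sub, neg_sub, sub_nonneg,
      Nat.cast_le]
  simp only [Amb, Set.mem_ofPred_eq, e, pr_w, sub_nonneg, Nat.cast_le]
  rfl

theorem pieces [Algebra ℚ O] (hE : Z.Ext) (hP : Y.Pr) (hA : Y.ThA) :
    ∃ N : Finset Y.I → Set (D.τ ⊕ Y.I → ℕ), (∀ P', ∀ z ∈ N P', ∀ z' ∈ N P', z + z' ∈ N P') ∧
    (∀ P', ∀ z ∈ N P', z ∈ D.MN Z ∧ nn z ≠ 0 ∧ D.Has Z P' z ∧
      (∀ c ∈ P', cmb D.β (nn z) (Z.p c) ≤ ps z c) ∧ D.Lf Z z) ∧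
    (∀ P', ∃ (r : ℕ) (g : Fin r → D.τ ⊕ Y.I → ℕ), (∀ l, g l ∈ N P') ∧ ∀ z ∈ N P',
      ∃ t : Fin r → ℝ, (∀ l, 0 ≤ t l) ∧ ∀ j, (z j : ℝ) = ∑ l, t l * g l j) ∧
    ∀ n, n ≠ 0 → ∀ x ∈ X.H (cmb D.a n), Z.ρ x ≠ 0 → ∀ v : Y.I → ℕ,
      (∀ c, Y.Ord c (D.rf Z n) (Z.ρ x) (v c)) →
        ∃ P', Sum.elim n (fun c => min (cmb D.β n (Z.p c)) (v c)) ∈ N P' := by
  obtain ⟨k, F, hk, hF, b1, b2⟩ := D.base Z hP hA
  obtain ⟨δ, hδ, hl⟩ := D.lift Z hE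
  let N : Finset Y.I → Set (D.τ ⊕ Y.I → ℕ) := fun P' =>
    {z | toR (cZ z) ∈ D.Amb Z F P' ∧ nn z ≠ 0 ∧ D.Has Z P' z}
  have hadd : ∀ P', ∀ z ∈ N P', ∀ z' ∈ N P', z + z' ∈ N P' := by
    rintro P' z ⟨h1, h2, h3⟩ z' ⟨k1, -, k3⟩
    refine ⟨?_, fun h => h2 ?_, D.has_add Z hP h3 k3⟩
    · obtain ⟨W, hW⟩ := D.pol_amb Z hF P'
      rw [hW] at h1 k1 ⊢
      rw [show cZ (z + z') = cZ z + cZ z' from map_add cH z z', toR_add]
      exact add_mem_hcone h1 k1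
    · rw [map_add] at h
      exact funext fun t => (Nat.add_eq_zero_iff.1 (congrFun h t)).1
  refine ⟨N, hadd, fun P' z hz => ?_, fun P' => ?_, fun n hn x hx h0 v hv => ?_⟩
  · have h := ((D.mem_amb Z).1 hz.1).1
    exact ⟨h.1, hz.2.1, hz.2.2, h.2, hl P' _ (fun y hy => hy.2.2) z hz.2.1 h.2 (apx_self hδ hz)⟩
  · refine piece (hadd P') (D.pol_amb Z hF P') (fun z hz => hz.1) hk hδ fun z h0 h1 ha => ?_
    have h2 : toR (cZ (k • z)) ∈ D.Amb Z F P' := by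
      obtain ⟨W, hW⟩ := D.pol_amb Z hF P'
      rw [hW] at h1 ⊢
      rw [show cZ (k • z) = k • cZ z from map_nsmul cH k z, toR_nsmul]
      exact smul_mem_hcone h1 (Nat.cast_nonneg _)
    obtain ⟨-, h3, h4⟩ := (D.mem_amb Z).1 h1
    have h5 := ((D.mem_amb Z).1 h2).1
    have h6 : nn (k • z) ≠ 0 := D.nn_ne Z h5.1 (smul_ne_zero (by omega) h0)
    obtain ⟨s, hs, h7⟩ := avoid (D.G Z (cZ (k • z)))
      (fun c : Option {c // c ∉ P'} => D.Pc Z (c.map Subtype.val) (cZ (k • z))) fun c => by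
        cases c with
        | none => exact b1 _ z h3
        | some c => exact b1 _ z (h4 c.1 c.2)
    obtain ⟨x, hx, e⟩ := hl P' _ (fun y hy => hy.2.2) _ h6 h5.2 ha s hs
    refine ⟨h2, h6, 1, one_pos, x, by rwa [one_smul], ?_, fun c hc => ?_⟩
    · rw [e]
      exact mul_ne (mon_mem _) hs (mon_ne _) (h7 none)
    · have := (ord_mul hP (ord_mon hP c (ps (k • z))) ⟨dv_zero hs, h7 (some ⟨c, hc⟩)⟩).2
      rwa [e, one_smul, one_mul, ← add_sub_cancel (Y.D (ps (k • z))) (D.rf Z _), ← dZ_cZ]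
  · classical
    set ψ : Y.I → ℕ := fun c => min (cmb D.β n (Z.p c)) (v c) with hψ
    obtain ⟨s, hs, e⟩ := div_mon hP (n := ψ) (D.res_mem Z hx) fun c =>
      dv_anti (min_le_right _ _) (hv c).1
    have hs' : s ∈ D.G Z (cZ (Sum.elim n ψ)) := by rw [G, dZ_cZ]; exact hs
    have hM : Sum.elim n ψ ∈ D.MN Z := fun c => min_le_left _ _
    have hc : ∀ c ∉ Finset.univ.filter fun c => cmb D.β n (Z.p c) < v c, ψ c = v c := fun c hc =>
      min_eq_right (by simpa using hc)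
    refine ⟨Finset.univ.filter fun c => cmb D.β n (Z.p c) < v c, (D.mem_amb Z).2
      ⟨⟨hM, fun c h => (min_eq_left (Finset.mem_filter.1 h).2.le).ge⟩,
        b2 none _ hM fun h => h0 ?_, fun c h => b2 (some c) _ hM fun h' => (hv c).2 ?_⟩,
      hn, 1, one_pos, x, by rw [one_smul]; exact hx, h0, fun c h => ?_⟩
    · rw [← e, show s = 0 from h hs', mul_zero]
    · have := dv_mul (mon_dv ψ c) (h' hs')
      rwa [e, hc c h, dZ_cZ, show ps (Sum.elim n ψ) = ψ from rfl, add_sub_cancel] at this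
    · rw [one_smul, one_mul, show ps (Sum.elim n ψ) c = v c from hc c h]
      exact (hv c).2

end Dt

end P277Z.FG.S4
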