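import Vale.Agent.P277Z.FG.Bas

/-!
# P277, finite generation: transfer along a modification
-/

noncomputable section

namespace P277Z.FG

open Gr Finset Filter Topology

variable {O : Type} [CommRing O]

theorem closure_range_eq {ι M : Type} [Fintype ι] [AddCommMonoid M] (d : ι → M)
    (φ : (ι → ℕ) →+ M) (h : ∀ n, φ n = ∑ i, n i • d i) :
    φ '' ((⊤ : AddSubmonoid (ι → ℕ)) : Set (ι → ℕ)) = AddSubmonoid.closure (Set.range d) := by
  ext a
  rw [SetLike.mem_coe, mem_closure_range]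
  exact ⟨fun ⟨n, _, hn⟩ => ⟨n, by rw [← hn, h]⟩, fun ⟨n, hn⟩ => ⟨n, trivial, by rw [hn, h]⟩⟩

/-- `n ↦ ∑ n i • d i` -/
def lcb {ι M : Type} [Fintype ι] [AddCommMonoid M] (d : ι → M) : (ι → ℕ) →+ M where
  toFun n := ∑ i, n i • d i
  map_zero' := by simp
  map_add' n n' := by simp [add_smul, sum_add_distrib]

theorem lcb_apply {ι M : Type} [Fintype ι] [AddCommMonoid M] (d : ι → M) (n : ι → ℕ) :
    lcb d n = ∑ i, n i • d i := rfl

theorem fg_closure_range {ι M : Type} [Finite ι] [AddCommMonoid M] (d : ι → M) :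
    (AddSubmonoid.closure (Set.range d)).FG :=
  (AddSubmonoid.fg_iff _).2 ⟨_, rfl, Set.finite_range d⟩

/-- passing to multiples of the generators -/
theorem fgm_of_mul [IsNoetherianRing O] {K : Type} [CommRing K] [Algebra O K] {J ι : Type}
    [Finite J] [Finite ι] {H N : (J → ℤ) → Submodule O K} (hH : Fam H) (hN : Idl H N)
    (hP : Prm H N) (d : ι → J → ℤ) (k : ι → ℕ) (hk : ∀ i, 0 < k i)
    (h : FGm H N (AddSubmonoid.closure (Set.range fun i => k i • d i))) :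
    FGm H N (AddSubmonoid.closure (Set.range d)) :=
  (FGm.of_sat hH hN hP (fg_closure_range _) h).mono (AddSubmonoid.closure_le.2 (by
    rintro _ ⟨i, rfl⟩
    exact ⟨k i, hk i, AddSubmonoid.subset_closure ⟨i, rfl⟩⟩))

namespace Blow

variable {X Y : LM O} (Z : Blow X Y)

theorem trf {ι : Type} [Fintype ι] (d : ι → X.J → ℤ) (e : ι → Y.I → ℕ)
    (he : ∀ s c, e s c ≠ 0 → Z.exc c) (N : (X.J → ℤ) → Submodule O X.R)
    (N' : (Y.J → ℤ) → Submodule O Y.R) (hN' : Idl Y.H N')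
    (hker : ∀ a (e : Y.I → ℕ), (∀ c, e c ≠ 0 → Z.exc c) → ∀ x ∈ X.H a,
      (Y.mon e * Z.φ x ∈ N' (Z.r.mulVec a + Y.D e) ↔ x ∈ N a))
    (h : FGm Y.H N' (AddSubmonoid.closure (Set.range fun s => Z.r.mulVec (d s) + Y.D (e s)))) :
    FGm X.H N (AddSubmonoid.closure (Set.range d)) := by
  have htop : (⊤ : AddSubmonoid (ι → ℕ)).FG := AddSubmonoid.fg_of_subtractive (by simp)
  let ψ := lcb fun s => Z.r.mulVec (d s) + Y.D (e s)
  have hψ : ∀ n, ψ n = Z.r.mulVec (lcb d n) + Y.D (lcb e n) := fun n => by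
    simp only [ψ, lcb_apply, smul_add, sum_add_distrib, Matrix.mulVec_sum, Matrix.mulVec_smul,
      LM.D_sum, LM.D_nsmul]
  have hex : ∀ n c, lcb e n c ≠ 0 → Z.exc c := fun n c hc => by
    rw [lcb_apply, Finset.sum_apply] at hc
    obtain ⟨s, -, hs⟩ := exists_ne_zero_of_sum_ne_zero hc
    exact he s c (right_ne_zero_of_mul hs)
  have h1 := h.comap Y.fam ψ ⊤ htop fun n _ => mem_closure_range.2 ⟨n, rfl⟩
  have hT : Tr (fun n => X.H (lcb d n)) (fun n => N (lcb d n)) (fun n => Y.H (ψ n))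
      (fun n => N' (ψ n)) ⊤ fun n x => Y.mon (lcb e n) * Z.φ x :=
    { mem := fun n _ x hx => by
        rw [hψ, add_comm]
        exact Y.fam.mul (Y.mon_mem _) (Z.mem _ _ hx)
      add := fun n _ x _ y _ => by rw [map_add, mul_add]
      smul := fun n _ c x _ => by rw [map_smul, mul_smul_comm]
      mul := fun n _ n' _ x _ y _ => by rw [map_add, LM.mon_add, map_mul]; ring
      one := by rw [map_zero, LM.mon_zero, map_one, one_mul]
      ker := fun n _ x hx => by rw [hψ]; exact hker _ _ (hex n) x hx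
      surj := fun n _ y hy => by
        rw [hψ] at hy
        obtain ⟨x, hx, rfl⟩ := Z.surj _ _ (hex n) y hy
        exact ⟨x, hx, by rw [sub_self]; exact zero_mem _⟩ }
  rw [← closure_range_eq d (lcb d) fun _ => rfl]
  exact FGm.map (lcb d) (hT.fgm_left (X.fam.comap _) (Y.fam.comap _) (hN'.comap _) htop h1)

theorem trf_fg {ι : Type} [Fintype ι] (d : ι → X.J → ℤ) (e : ι → Y.I → ℕ)
    (he : ∀ s c, e s c ≠ 0 → Z.exc c)
    (h : FG Y.H (AddSubmonoid.closure (Set.range fun s => Z.r.mulVec (d s) + Y.D (e s)))) :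
    FG X.H (AddSubmonoid.closure (Set.range d)) :=
  Z.trf d e he (fun _ => ⊥) (fun _ => ⊥) (@idl_bot _ _ _ _ _ _ _ Y.H) (fun a e _ x hx => by
    rw [Submodule.mem_bot, Submodule.mem_bot]
    refine ⟨fun h => Z.inj a x hx ?_, fun h => by rw [h, map_zero, mul_zero]⟩
    by_contra h1
    exact LM.mul_ne (Y.mon_mem e) (Z.mem a x hx) (LM.mon_ne e) h1 h) h

theorem ker_res {i : X.I} {T : Y.I} (hm : Z.m i = Pi.single T 1) (hT : ¬ Z.exc T) (hY : Y.Pr)
    (a : X.J → ℤ) (e : Y.I → ℕ) (he : ∀ c, e c ≠ 0 → Z.exc c) (x : X.R) (hx : x ∈ X.H a) :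
    Y.mon e * Z.φ x ∈ Y.Dv T 1 (Z.r.mulVec a + Y.D e) ↔ x ∈ X.Dv i 1 a := by
  obtain ⟨u, ⟨hu, u', hu', huu⟩, hσ⟩ := Z.pull i
  rw [hm, LM.D_single, one_smul] at hu hu'
  rw [hm, LM.mon_single, pow_one] at hσ
  obtain ⟨hP, h1, hnd⟩ := hY T
  constructor
  · intro h
    have h2 : Y.mon e ∉ Y.Dv T 1 (Y.D e) :=
      Prm.prod_notMem Y.fam hP h1 univ (fun c _ => Y.fam.pow (Y.σ_mem c) (e c)) fun c _ => by
        by_cases hc : e c = 0
        · rw [hc, pow_zero, zero_smul]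
          exact h1
        · exact Prm.pow_notMem Y.fam hP h1 (Y.σ_mem c)
            (hnd c fun h => hT (h ▸ he c hc)) _
    rw [add_comm] at h
    obtain ⟨y, hy, hxy⟩ := LM.mem_Dv_one.1
      ((hP (Y.mon_mem e) (Z.mem a x hx) h).resolve_left h2)
    have h3 : u' * y ∈ Y.H (Z.r.mulVec (a - X.S i) + Y.D 0) := by
      have := Y.fam.mul hu' hy
      convert this using 2
      rw [LM.D_zero, Matrix.mulVec_sub]
      abel
    obtain ⟨x', hx', h4⟩ := Z.surj _ 0 (fun _ h => (h rfl).elim) _ h3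
    rw [LM.mon_zero, one_mul] at h4
    have h5 : X.σ i * x' ∈ X.H a := by
      have := X.fam.mul (X.σ_mem i) hx'
      rwa [add_sub_cancel] at this
    refine LM.mem_Dv_one.2 ⟨x', hx', sub_eq_zero.1 (Z.inj a _ (sub_mem h5 hx) ?_)⟩
    rw [map_sub, map_mul, hσ, ← h4, ← hxy]
    linear_combination (Y.σ T * y) * huu
  · intro h
    obtain ⟨z, hz, rfl⟩ := LM.mem_Dv_one.1 h
    refine LM.mem_Dv_one.2 ⟨Y.mon e * (u * Z.φ z), ?_, by rw [map_mul, hσ]; ring⟩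
    convert Y.fam.mul (Y.mon_mem e) (Y.fam.mul hu (Z.mem _ _ hz)) using 2
    rw [Matrix.mulVec_sub]
    abel

/-- the pull back of a divisor -/
def pl (β : X.I → ℕ) : Y.I → ℕ := ∑ l, β l • Z.m l

theorem pl_apply (β : X.I → ℕ) (c : Y.I) : Z.pl β c = ∑ l, β l * Z.m l c := by
  simp [pl]

/-- the boundary on the modification -/
def bd (m : ℕ) (β : X.I → ℕ) : Y.I → ℕ := fun c => Z.pl β c - m * Z.a c

/-- the exceptional part -/
def ex (m : ℕ) (β : X.I → ℕ) : Y.I → ℕ := fun c => m * Z.a c - Z.pl β c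

theorem ex_exc (m : ℕ) (β : X.I → ℕ) (c : Y.I) (h : Z.ex m β c ≠ 0) : Z.exc c :=
  Z.a_exc c fun h1 => h (by simp [ex, h1])

theorem bd_lt {m : ℕ} {β : X.I → ℕ} (hm : 0 < m) (h : ∀ l, β l < m) (c : Y.I) :
    Z.bd m β c < m := by
  obtain ⟨m, rfl⟩ : ∃ k, m = k + 1 := ⟨m - 1, by omega⟩
  have h1 : Z.pl β c ≤ m * (1 + Z.a c) := by
    rw [pl_apply]
    calc _ ≤ ∑ l, m * Z.m l c :=
          sum_le_sum fun l _ => Nat.mul_le_mul_right _ (Nat.lt_succ_iff.1 (h l))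
      _ ≤ _ := by rw [← mul_sum]; exact Nat.mul_le_mul_left _ (Z.lc c)
  rw [bd]
  have : m * (1 + Z.a c) ≤ m + (m + 1) * Z.a c := by nlinarith
  omega

theorem lin_S (l : X.I) : Y.Lin (rl Z.r (cst (X.S l)) - cst (Y.D (Z.m l))) := by
  obtain ⟨u, hu, -⟩ := Z.pull l
  rw [rl_cst, ← map_sub]
  exact hu.lin

/-- the ample part on the modification -/
theorem amp_eq (a : X.J → ℤ) (m : ℕ) (β : X.I → ℕ) : ∃ w, Y.Lin w ∧
    cst (Z.r.mulVec a + Y.D (Z.ex m β) - m • Y.K - Y.D (Z.bd m β)) =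
      rl Z.r (cst (a - m • X.K - X.D β)) + w := by
  obtain ⟨u, hu⟩ := Z.K_eq
  refine ⟨(m : ℝ) • cst (Z.r.mulVec X.K + Y.D Z.a - Y.K) +
      ∑ l, (β l : ℝ) • (rl Z.r (cst (X.S l)) - cst (Y.D (Z.m l))),
    (hu.lin.smul _).add (LM.Lin.sum _ fun l _ => (Z.lin_S l).smul _), ?_⟩
  have h1 : Y.D (Z.ex m β) + Y.D (Z.pl β) = m • Y.D Z.a + Y.D (Z.bd m β) := by
    rw [← LM.D_nsmul, ← LM.D_add, ← LM.D_add]
    congr 1
    ext c
    simp only [ex, bd, Pi.add_apply, Pi.smul_apply, smul_eq_mul]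
    omega
  have h2 : Y.D (Z.pl β) = ∑ l, β l • Y.D (Z.m l) := by
    simp only [pl, LM.D_sum, LM.D_nsmul]
  have h3 : Z.r.mulVec (X.D β) = ∑ l, β l • Z.r.mulVec (X.S l) := by
    simp only [LM.D, Matrix.mulVec_sum, Matrix.mulVec_smul]
  simp only [rl_cst, ← map_sub, ← cst_nsmul, ← map_sum, ← map_add]
  congr 1
  simp only [Matrix.mulVec_sub, Matrix.mulVec_smul, smul_sub, smul_add, sum_sub_distrib, ← h2, ← h3]
  linear_combination h1

theorem nef_pull {v A₀ : X.J → ℝ} (hv : X.Nef v) (h : A₀ ∈ X.Amp) : Y.Nef (rl Z.r v) := by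
  intro A hA
  obtain ⟨s, hs, -, h1⟩ := LM.exists_small (LM.amp_small hA (-rl Z.r A₀))
  have h2 := Z.nef _ (hv _ (X.amp_smul s hs _ h)) _ h1
  rw [rl_add, rl_smul] at h2
  convert h2 using 1
  module

theorem big_pull {v : X.J → ℝ} {h : X.I → ℝ} (h0 : ∀ l, 0 ≤ h l) (hv : v - X.DR h ∈ X.Amp) :
    ∃ h' : Y.I → ℝ, (∀ c, 0 ≤ h' c) ∧
      (∀ c, ¬ Z.exc c → (∀ l, h l ≠ 0 → Z.m l c = 0) → h' c = 0) ∧
      rl Z.r v - Y.DR h' ∈ Y.Amp := by
  obtain ⟨g, hg, hA⟩ := Z.amp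
  obtain ⟨ε, hε, h1⟩ := hA _ hv
  refine ⟨(∑ l, h l • fun c => (Z.m l c : ℝ)) + ε • fun c => (g c : ℝ), fun c => ?_,
    fun c hc hm => ?_, ?_⟩
  · simp only [Pi.add_apply, Finset.sum_apply, Pi.smul_apply, smul_eq_mul]
    have := sum_nonneg fun l (_ : l ∈ univ) => mul_nonneg (h0 l) (Nat.cast_nonneg (Z.m l c))
    positivity
  · have h2 : g c = 0 := by
      by_contra h2
      exact hc (hg c h2)
    simp only [Pi.add_apply, Finset.sum_apply, Pi.smul_apply, smul_eq_mul, h2, Nat.cast_zero,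
      mul_zero, add_zero]
    refine sum_eq_zero fun l _ => ?_
    by_cases h3 : h l = 0
    · rw [h3, zero_mul]
    · rw [hm l h3, Nat.cast_zero, mul_zero]
  · have h2 := (LM.Lin.sum univ fun l _ => (Z.lin_S l).smul (h l)).add_mem h1
    convert h2 using 1
    have h3 : Y.DR (∑ l, h l • fun c => (Z.m l c : ℝ)) = ∑ l, h l • cst (Y.D (Z.m l)) := by
      simp only [LM.cst_D, ← LM.DR_smul]
      simp only [LM.DR, Finset.sum_apply, sum_smul]
      exact sum_comm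
    rw [LM.DR_add, h3, LM.DR_smul, ← LM.cst_D, rl_sub, LM.DR, rl_sum]
    simp only [rl_smul, smul_sub, sum_sub_distrib]
    abel

end Blow

end P277Z.FG
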